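import Vale.Agent.P269.Cv.Rat

/-!
# The projective line: monomials, line bundles, scalings
-/

set_option linter.unusedSectionVars false

namespace Vale.Agent.P269.P1

open Set Function Topology Filter Module Cv Polynomial OnePoint

/-- the monomial `z ^ a` as a section of `O d` -/
noncomputable def mon (d a : ℕ) (y : OnePoint ℂ) : ℂ := y.elim (if a = d then 1 else 0) (· ^ a)

@[simp] theorem mon_coe (d a : ℕ) (z : ℂ) : mon d a z = z ^ a := rfl

@[simp] theorem mon_infty (d a : ℕ) : mon d a ∞ = if a = d then 1 else 0 := rfl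

theorem mon_mul {d d' a a' : ℕ} (h : a ≤ d) (h' : a' ≤ d') :
    mon d a * mon d' a' = mon (d + d') (a + a') := funext fun y => by
  induction y using OnePoint.rec with
  | coe z => exact (pow_add z a a').symm
  | infty =>
    simp only [Pi.mul_apply, mon_infty]
    split_ifs <;> first | omega | simp

/-- the bundle `O(d)` -/
noncomputable def O (d : ℤ) : LB P1 := P1.pt ∞ ^ d

theorem O_nat (d : ℕ) : O d = P1.pt ∞ ^ d := zpow_natCast _ _

theorem O_add (a b : ℤ) : O (a + b) = O a * O b := zpow_add _ _ _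

theorem O_sub (a b : ℤ) : O (a - b) = O a / O b := (zpow_sub _ _ _).trans (div_eq_mul_inv _ _).symm

theorem O_mul (a b : ℤ) : O (a * b) = O a ^ b := zpow_mul _ _ _

@[simp] theorem O_zero : O 0 = 1 := zpow_zero _

theorem O_one : O 1 = P1.pt ∞ := zpow_one _

theorem O_sum {α : Type} (T : Finset α) (a : α → ℤ) : O (∑ i ∈ T, a i) = ∏ i ∈ T, O (a i) :=
  map_prod ((zpowersHom _ (P1.pt ∞)).comp (MonoidHom.id _)) (fun i => Multiplicative.ofAdd (a i)) T

theorem bz_O {ι : Type} [Fintype ι] (m a : ι → ℤ) :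
    bz (fun i => O (m i)) a = O (∑ i, a i * m i) := by
  simp only [bz, O_sum, mul_comm (a _), O_mul]

@[simp] theorem deg_O (d : ℤ) : deg (O d) = d := by rw [O, deg_zpow, deg_pt, mul_one]

theorem gen_P1 : gen P1 ∅ = 0 := by simp [gen, P1_chi]

theorem deg_K_P1 : deg P1.K = -2 := by rw [deg_K, P1_chi, mul_one]

@[simp] theorem O_φ_coe (d : ℤ) (a : ℂ) (y : OnePoint ℂ) : (O d).φ a y = 1 := by
  rw [O, LB.zpow_φ, P1.pt_φ_ne (coe_ne_infty a), one_zpow]

theorem O_φ_infty (d : ℤ) {t : ℂ} (h : t ≠ 0) : (O d).φ ∞ (iv t) = t⁻¹ ^ d := by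
  rw [O, LB.zpow_φ, P1_pt_infty h]

section conn

variable {X : Type} [TopologicalSpace X] [T2Space X] [CompactSpace X] [ConnectedSpace X] {R : RS X}
  {L : LB R} {s t : X → ℂ}

theorem ge_iff {n : ℤ} : Ge L n ↔ n ≤ deg L :=
  ⟨fun h => degOn_univ (L := L) ▸ h _ isClopen_univ univ_nonempty,
    fun h U a b => by rwa [a.eq_univ b, degOn_univ]⟩

/-- the identity theorem -/
theorem eq_of_infinite (hs : s ∈ L.Γ) (ht : t ∈ L.Γ) (h : {x | s x = t x}.Infinite) : s = t :=
  funext fun x => by_contra fun a => h ((LB.finite_zeros (sub_mem hs ht) (gen_univ (sub_mem hs ht)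
    (x := x) (sub_ne_zero.2 a))).subset fun _ b => sub_eq_zero.2 b)

theorem ne_of_deg (hL : deg L = 0) (hs : s ∈ L.Γ) {x : X} (h : s x ≠ 0) (y : X) : s y ≠ 0 :=
  fun a => by
    have := card_le_degOn isClopen_univ (fun x _ => hs x) (gen_univ hs h).ge (T := {y})
      (by simpa using a)
    rw [degOn_univ, hL] at this
    simp at this

omit [ConnectedSpace X] in
theorem omega_empty (P : Finset X) : omega R ∅ P = R.K * ∏ p ∈ P, R.pt p :=
  LB.ext (funext₂ fun x y => by simp [omega, LB.cst])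

end conn

theorem eq_of_ev {L : LB P1} {s t : OnePoint ℂ → ℂ} (hs : s ∈ L.Γ) (ht : t ∈ L.Γ)
    (h : ∀ᶠ z : ℂ in cofinite, s z = t z) : s = t :=
  eq_of_infinite hs ht (Infinite.of_image zc ((infinite_of_finite_compl h).mono
    fun z hz => ⟨z, hz, rfl⟩))

theorem eq_of_coe {L : LB P1} {s t : OnePoint ℂ → ℂ} (hs : s ∈ L.Γ) (ht : t ∈ L.Γ)
    (h : ∀ z : ℂ, s z = t z) : s = t := eq_of_ev hs ht (.of_forall h)

theorem h1_O {d : ℤ} (h : -1 ≤ d) : h1 ∅ (O d) = 0 :=
  h1_eq_zero nd_empty (ge_iff.2 (by rw [deg_div, deg_O, deg_omega, gen_P1]; simp; omega))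

/-- every bundle is `O(d)` -/
theorem exists_triv (L : LB P1) : ∃ s ∈ (O (deg L) / L).Γ, ∀ y, s y ≠ 0 :=
  let ⟨s, a, b, _⟩ := IsRat.exists_triv (L := O (deg L) / L) ⟨isClopen_univ, isConnected_univ,
    degOn_univ.trans deg_K_P1⟩ (by rw [degOn_univ, deg_div, deg_O, sub_self])
  ⟨s, a, fun y => b y (mem_univ y)⟩

/-! ### sections -/

/-- the point `(1, z, …, z ^ (n - 1))` of the rational normal curve -/
noncomputable def ver (n : ℕ) (y : OnePoint ℂ) : Fin n → ℂ := fun j => mon (n - 1) j y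

@[simp] theorem ver_coe (n : ℕ) (z : ℂ) (j : Fin n) : ver n z j = z ^ (j : ℕ) := rfl

theorem ver_infty (n : ℕ) (j : Fin n) : ver n ∞ j = if (j : ℕ) = n - 1 then 1 else 0 := rfl

/-- the value at `y` of the section with coefficients `c` -/
noncomputable def ev (n : ℕ) (y : OnePoint ℂ) : (Fin n → ℂ) →L[ℂ] ℂ :=
  ∑ j, ver n y j • ContinuousLinearMap.proj j

theorem ev_apply (n : ℕ) (y : OnePoint ℂ) (c : Fin n → ℂ) : ev n y c = ∑ j, ver n y j * c j := by
  simp [ev]

theorem ev_single {n : ℕ} (y : OnePoint ℂ) (j : Fin n) (a : ℂ) :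
    ev n y (Pi.single j a) = ver n y j * a := by
  rw [ev_apply, Finset.sum_eq_single j (fun i _ h => by simp [h]) (by simp), Pi.single_eq_same]

theorem ev_coe (n : ℕ) (z : ℂ) (c : Fin n → ℂ) : ev n z c = (ofFn n c).eval z := by
  simp [ev_apply, ofFn_eq_sum_monomial, eval_finsetSum, mul_comm]

theorem ev_infty (d : ℕ) (c : Fin (d + 1) → ℂ) : ev (d + 1) ∞ c = c (Fin.last d) := by
  rw [ev_apply, Finset.sum_eq_single (Fin.last d) (fun i _ h => by
    simp [ver_infty, (Fin.val_lt_last h).ne]) (by simp)]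
  simp [ver_infty]

theorem ev_ext {n : ℕ} {c c' : Fin n → ℂ} (h : ∀ᶠ z : ℂ in cofinite, ev n z c = ev n z c') :
    c = c' :=
  injective_ofFn n (eq_of_infinite_eval_eq _ _ ((infinite_of_finite_compl h).mono fun z hz => by
    simpa only [ev_coe] using hz))

theorem ev_ext' {n : ℕ} {c c' : Fin n → ℂ} (h : ∀ z : ℂ, ev n z c = ev n z c') : c = c' :=
  ev_ext (.of_forall h)

theorem an_ev {n : ℕ} (c : Fin n → ℂ) (z : ℂ) : AnalyticAt ℂ (fun z : ℂ => ev n z c) z := by
  simp only [ev_coe]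
  exact (ofFn n c).differentiable.analyticAt z

theorem mem_O {n : ℕ} {d : ℤ} (h : (n : ℤ) = d + 1) (h0 : 0 ≤ d) {s : OnePoint ℂ → ℂ} :
    s ∈ (O d).Γ ↔ ∃ c, ∀ y, s y = ev n y c := by
  lift d to ℕ using h0
  obtain rfl : n = d + 1 := by omega
  rw [O_nat, P1_mem_iff]
  refine ⟨fun ⟨q, a, b, c⟩ => ⟨toFn _ q, fun y => ?_⟩, fun ⟨c, a⟩ => ⟨ofFn _ c,
    Nat.lt_succ_iff.1 (ofFn_natDegree_lt (by omega) c), fun z => (a z).trans (ev_coe ..), ?_⟩⟩
  · induction y using OnePoint.rec with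
    | coe z => rw [ev_coe, ofFn_comp_toFn_eq_id_of_natDegree_lt (by omega), b]
    | infty => exact c.trans (ev_infty d (toFn _ q)).symm
  · rw [a, ev_infty, ofFn_coeff_eq_val_of_lt c d.lt_succ_self]
    rfl

theorem ev_mem {n : ℕ} {d : ℤ} (h : (n : ℤ) = d + 1) (h0 : 0 ≤ d) (c : Fin n → ℂ) :
    (fun y => ev n y c) ∈ (O d).Γ := (mem_O h h0).2 ⟨c, fun _ => rfl⟩

theorem ver_mem {n : ℕ} {d : ℤ} (h : (n : ℤ) = d + 1) (j : Fin n) :
    (fun y => ver n y j) ∈ (O d).Γ :=
  (mem_O h (by have := j.2; omega)).2 ⟨Pi.single j 1, fun y => by rw [ev_single, mul_one]⟩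

theorem mon_mem {d a : ℕ} (h : a ≤ d) : mon d a ∈ (O d).Γ :=
  ver_mem (n := d + 1) (by simp) ⟨a, by omega⟩

theorem ver_ne {n : ℕ} (h : n ≠ 0) (y : OnePoint ℂ) : ver n y ≠ 0 := fun e => by
  induction y using OnePoint.rec with
  | coe z => simpa using congrFun e ⟨0, by omega⟩
  | infty => simpa [ver_infty] using congrFun e ⟨n - 1, by omega⟩

/-- the monomials are a basis of the sections of `O d` -/
noncomputable def evE (d : ℕ) : (Fin (d + 1) → ℂ) ≃ₗ[ℂ] (O d).Γ :=
  .ofBijective ⟨⟨fun c => ⟨_, ev_mem (by simp) (by simp) c⟩, fun _ _ => Subtype.ext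
    (funext fun y => map_add (ev _ y) _ _)⟩, fun _ _ => Subtype.ext
      (funext fun y => (ev _ y).map_smul _ _)⟩
    ⟨fun _ _ e => ev_ext' fun z => congrFun (congrArg Subtype.val e) z, fun s =>
      let ⟨c, e⟩ := (mem_O (n := d + 1) (by simp) (by simp)).1 s.2
      ⟨c, Subtype.ext (funext fun y => (e y).symm)⟩⟩

theorem evE_apply (d : ℕ) (c : Fin (d + 1) → ℂ) (y : OnePoint ℂ) :
    (evE d c).1 y = ev (d + 1) y c := rfl

theorem O_le_mul {a b : ℤ} (ha : 0 ≤ a) (hb : 0 ≤ b) : (O a * O b).Γ ≤ (O a).Γ * (O b).Γ := by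
  lift a to ℕ using ha
  lift b to ℕ using hb
  intro s hs
  obtain ⟨c, e⟩ := (mem_O (n := a + b + 1) (by simp) (by omega)).1 (O_add a b ▸ hs)
  rw [show s = ∑ j, c j • mon (a + b) j from funext fun y => by
    simp [e, ev_apply, ver, mul_comm]]
  refine Submodule.sum_mem _ fun j _ => Submodule.smul_mem _ _ ?_
  have := j.2
  rw [show (j : ℕ) = min (j : ℕ) a + (j - min (j : ℕ) a) by omega, ← mon_mul (by omega) (by omega)]
  exact Submodule.mul_mem_mul (mon_mem (by omega)) (mon_mem (by omega))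

theorem ext_ver {n : ℕ} {F : Type*} [AddCommGroup F] [Module ℂ F] {f g : (Fin n → ℂ) →ₗ[ℂ] F}
    (h : ∀ z : ℂ, f (ver n z) = g (ver n z)) : f = g := by
  refine LinearMap.ext_on_range (v := fun z : ℂ => ver n z) (by_contra fun a => ?_) h
  obtain ⟨l, b, c⟩ := Submodule.exists_le_ker_of_lt_top _ (lt_top_iff_ne_top.2 a)
  have : (fun j => l (Pi.single j 1)) = 0 := ev_ext' fun z => by
    have : l (ver n z) = 0 := c (Submodule.subset_span ⟨z, rfl⟩)
    rw [pi_eq_sum_univ' (ver n z), map_sum] at this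
    simpa [ev_apply] using this
  exact b (LinearMap.pi_ext' fun j => LinearMap.ext_ring (congrFun this j))

theorem ext_verL {n : ℕ} {F : Type*} [NormedAddCommGroup F] [NormedSpace ℂ F]
    {f g : (Fin n → ℂ) →L[ℂ] F} (h : ∀ z : ℂ, f (ver n z) = g (ver n z)) : f = g :=
  ContinuousLinearMap.coe_injective (ext_ver h)

/-- the derivative of `ver` -/
noncomputable def dver (n : ℕ) (z : ℂ) : Fin n → ℂ := fun j => (j : ℕ) * z ^ ((j : ℕ) - 1)

theorem hasDerivAt_ver (n : ℕ) (z : ℂ) : HasDerivAt (fun z : ℂ => ver n z) (dver n z) z :=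
  hasDerivAt_pi.2 fun j => hasDerivAt_pow j z

theorem an_ver (n : ℕ) (z : ℂ) : AnalyticAt ℂ (fun z : ℂ => ver n z) z :=
  analyticAt_pi_iff.2 fun _ => analyticAt_id.pow _

theorem an_dver (n : ℕ) (z : ℂ) : AnalyticAt ℂ (dver n) z :=
  analyticAt_pi_iff.2 fun _ => analyticAt_const.mul (analyticAt_id.pow _)

theorem eq_of_cofinite {f g : ℂ → ℂ} (hf : Continuous f) (hg : Continuous g)
    (h : ∀ᶠ z in cofinite, f z = g z) : f = g :=
  hf.ext_on ((Finite.countable h).dense_compl ℂ) hg fun _ a => not_not.1 a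

theorem exists_ext {α β X : Type} [Finite β] [Infinite X] {e : α → β} (he : Injective e)
    {p : α → X} (hp : Injective p) : ∃ P : β → X, Injective P ∧ ∀ a, P (e a) = p a := by
  classical
  have := Finite.of_injective e he
  have := Fintype.ofFinite β
  have := (finite_range p).infinite_compl.to_subtype
  let k := Infinite.natEmbedding ((range p)ᶜ : Set X) ∘ fun b => (Fintype.equivFin β b : ℕ)
  refine ⟨extend e p fun b => k b, fun b b' h => ?_, he.extend_apply _ _⟩
  by_cases a : ∃ a, e a = b <;> by_cases a' : ∃ a, e a = b'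
  · obtain ⟨a, rfl⟩ := a
    obtain ⟨a', rfl⟩ := a'
    rw [he.extend_apply, he.extend_apply] at h
    rw [hp h]
  · obtain ⟨a, rfl⟩ := a
    rw [he.extend_apply, extend_apply' _ _ _ a'] at h
    exact absurd ⟨a, h⟩ (k b').2
  · obtain ⟨a', rfl⟩ := a'
    rw [he.extend_apply, extend_apply' _ _ _ a] at h
    exact absurd ⟨a', h.symm⟩ (k b).2
  · rw [extend_apply' _ _ _ a, extend_apply' _ _ _ a'] at h
    exact (Fintype.equivFin β).injective (Fin.ext ((Infinite.natEmbedding _).injective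
      (Subtype.ext h)))

/-- interpolation -/
theorem ev_surj {α : Type} [Fintype α] {n : ℕ} (h : Fintype.card α ≤ n) {q : α → OnePoint ℂ}
    (hq : Injective q) (w : α → ℂ) : ∃ c, ∀ a, ev n (q a) c = w a := by
  classical
  obtain ⟨e⟩ := Embedding.nonempty_of_card_le (β := Fin n) (by simpa using h)
  obtain ⟨Q, a, b⟩ := exists_ext e.injective hq
  obtain ⟨c, hc⟩ := (LinearMap.injective_iff_surjective (f := LinearMap.pi fun j =>
      (ev n (Q j)).toLinearMap)).1 ((injective_iff_map_eq_zero _).2 fun c hc => by_contra fun d => by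
    obtain ⟨z, hz⟩ := not_forall.1 (mt (ev_ext' (c' := 0)) d)
    have m := ev_mem (n := n) (d := n - 1) (by ring) (by
      rcases n with _ | n
      exacts [absurd (Subsingleton.elim _ _) d, by simp]) c
    have := card_le_degOn isClopen_univ (fun x _ => m x) (gen_univ m (by simpa using hz)).ge
      (T := Finset.univ.image Q) (by simpa using congrFun hc)
    rw [degOn_univ, deg_O, Finset.card_image_of_injective _ a] at this
    simp at this) (extend e w 0)
  exact ⟨c, fun i => by rw [← b, ← e.injective.extend_apply w 0, ← hc]; rfl⟩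

/-- at most three points of a rational curve can be moved to given positions -/
theorem exists_iso' {X α : Type} [TopologicalSpace X] [T2Space X] [CompactSpace X]
    [ConnectedSpace X] {R : RS X} (h : chi (1 : LB R) = 1) [Fintype α] (hα : Fintype.card α ≤ 3)
    {p : α → X} (hp : Injective p) {q : α → OnePoint ℂ} (hq : Injective q) :
    ∃ f : OnePoint ℂ ≃ X, LIso P1 R f ∧ ∀ a, f (q a) = p a := by
  obtain ⟨x⟩ : Nonempty X := inferInstance
  have := R.neBot x
  have : Infinite X := infinite_univ_iff.1 (infinite_of_mem_nhds x univ_mem)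
  obtain ⟨e⟩ := Embedding.nonempty_of_card_le (β := Fin 3) (by simpa using hα)
  obtain ⟨P, a, b⟩ := exists_ext e.injective hp
  obtain ⟨Q, a', b'⟩ := exists_ext e.injective hq
  obtain ⟨f, c, d⟩ := exists_iso h (p := P 0) (q := P 1) (r := P 2) (a.ne (by decide))
    (a.ne (by decide)) (a.ne (by decide))
  obtain ⟨f', c', d'⟩ := exists_iso P1_chi (p := Q 0) (q := Q 1) (r := Q 2) (a'.ne (by decide))
    (a'.ne (by decide)) (a'.ne (by decide))
  refine ⟨f'.trans f.symm, (LIso.symm f c).comp c', fun i => ?_⟩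
  rw [← b, ← b', Equiv.trans_apply, Equiv.symm_apply_eq]
  generalize e i = j
  fin_cases j
  exacts [d'.1.trans d.1.symm, d'.2.1.trans d.2.1.symm, d'.2.2.trans d.2.2.symm]

/-! ### the canonical bundle and the points -/

/-- the form `dz` -/
theorem K_mem : (fun y : OnePoint ℂ => y.elim (-1 : ℂ) fun _ => 1) ∈ (P1.K * O 2).Γ := fun x => by
  induction x using OnePoint.rec with
  | coe a =>
    refine (analyticAt_const (v := (1 : ℂ))).congr (.of_forall fun t => ?_)
    simp [P1_loc_coe, P1_K_coe]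
  | infty =>
    refine (analyticAt_const (v := (-1 : ℂ))).congr (.of_forall fun t => ?_)
    by_cases h : t = 0
    · simp [h]
    · rw [P1_loc_infty, LB.mul_φ, O_φ_infty _ h, P1_K_infty, if_neg h, iv_ne h]
      simp [h]

/-- the linear form that vanishes at `q` -/
noncomputable def lin (q : OnePoint ℂ) (z : ℂ) : ℂ := q.elim 1 (z - ·)

@[simp] theorem lin_coe (q z : ℂ) : lin q z = z - q := rfl

@[simp] theorem lin_infty (z : ℂ) : lin ∞ z = 1 := rfl

theorem lin_ne {q : OnePoint ℂ} {z : ℂ} (h : (z : OnePoint ℂ) ≠ q) : lin q z ≠ 0 := by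
  induction q using OnePoint.rec with
  | coe a => exact sub_ne_zero.2 fun e => h (congrArg _ e)
  | infty => exact one_ne_zero

theorem an_lin (q : OnePoint ℂ) (z : ℂ) : AnalyticAt ℂ (lin q) z := by
  induction q using OnePoint.rec with
  | coe a => exact analyticAt_id.sub analyticAt_const
  | infty => exact analyticAt_const

/-- `O(q)` is `O 1` -/
theorem exists_lin (q : OnePoint ℂ) : ∃ s ∈ (O 1 / P1.pt q).Γ, (∀ y, s y ≠ 0) ∧
    ∀ z : ℂ, (z : OnePoint ℂ) ≠ q → s z = lin q z := by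
  induction q using OnePoint.rec with
  | infty => exact ⟨1, by rw [O_one, div_self']; exact LB.one_mem, fun _ => one_ne_zero, fun _ _ => rfl⟩
  | coe a =>
    have m : mon 1 1 - a • mon 1 0 ∈ (O 1).Γ :=
      sub_mem (mon_mem le_rfl) (Submodule.smul_mem _ _ (mon_mem (d := 1) zero_le_one))
    obtain ⟨s, b, -, c⟩ := exists_div (L := O 1 / P1.pt a) (p := a) (by rwa [div_mul_cancel])
      (by simp)
    exact ⟨s, b, ne_of_deg (by rw [deg_div, deg_O, deg_pt, sub_self]) b (x := ∞)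
      (by simp [c _ (infty_ne_coe a)]), fun z hz => by simp [c _ hz]⟩

open Classical in
/-- the trivialisation of `ω_log ⊗ O(2 - n)` -/
theorem exists_log {ν : Type} [Fintype ν] {q : ν → OnePoint ℂ} (hq : Injective q) :
    ∃ s ∈ ((omega P1 ∅ (Finset.univ.image q))⁻¹ * O (Fintype.card ν - 2)).Γ, (∀ y, s y ≠ 0) ∧
      ∀ z : ℂ, (∀ n, (z : OnePoint ℂ) ≠ q n) → s z = ∏ n, lin (q n) z := by
  choose s a b c using fun n => exists_lin (q n)
  have k : ∀ y : OnePoint ℂ, (y.elim (-1 : ℂ) fun _ => 1) ≠ 0 := fun y => by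
    induction y using OnePoint.rec <;> simp
  have := LB.mul_mem (LB.prod_mem (T := Finset.univ) fun n _ => a n) (LB.inv_mem K_mem k)
  rw [Finset.prod_div_distrib, ← O_sum, ← Finset.prod_image (s := Finset.univ) hq.injOn] at this
  refine ⟨(∏ n, s n) * (fun y : OnePoint ℂ => y.elim (-1 : ℂ) fun _ => 1)⁻¹, ?_,
    fun y => mul_ne_zero (by simp [Finset.prod_ne_zero_iff, b]) (inv_ne_zero (k y)),
    fun z hz => by simp [c _ z (hz _)]⟩
  convert this using 2
  simp only [omega_empty, O_sub, Finset.sum_const, Finset.card_univ, nsmul_eq_mul, mul_one,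
    div_eq_mul_inv, mul_inv, mul_comm, mul_left_comm, mul_assoc]

/-! ### scalings -/

/-- the scaling `z ↦ a z` -/
noncomputable def sc (a : ℂ) : OnePoint ℂ → OnePoint ℂ := OnePoint.map (a * ·)

@[simp] theorem sc_coe (a z : ℂ) : sc a z = (a * z : ℂ) := rfl

@[simp] theorem sc_infty (a : ℂ) : sc a ∞ = ∞ := rfl

theorem sc_one (y : OnePoint ℂ) : sc 1 y = y := by induction y using OnePoint.rec <;> simp

theorem sc_sc (a b : ℂ) (y : OnePoint ℂ) : sc a (sc b y) = sc (a * b) y := by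
  induction y using OnePoint.rec <;> simp [mul_assoc]

theorem zc_sc (a : ℂ) (y : OnePoint ℂ) : zc (sc a y) = a * zc y := by
  induction y using OnePoint.rec <;> simp

/-- the scaling as a permutation -/
noncomputable def scE (a : ℂˣ) : OnePoint ℂ ≃ OnePoint ℂ :=
  ⟨sc a, sc ↑a⁻¹, fun y => by simp [sc_sc, sc_one], fun y => by simp [sc_sc, sc_one]⟩

theorem liso_sc {a : ℂ} (ha : a ≠ 0) : LIso P1 P1 (sc a) := by
  have e : (fun y => P1.e (sc a ∞) (sc a y)) = fun y => a⁻¹ * P1.e ∞ y := funext fun y => by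
    rw [sc_infty, P1_e_infty, P1_e_infty, zc_sc, mul_inv]
  refine ⟨(Homeomorph.mulLeft₀ a ha).onePointCongr.continuous, OnePoint.forall.2 ⟨?_, fun z => ?_⟩,
    OnePoint.forall.2 ⟨?_, fun z => ?_⟩⟩
  · exact e ▸ (RS.hol_const _).mul (RS.hol_e (P1.mem _))
  · simp only [P1_hol_coe, sc_coe, P1_e_coe]
    fun_prop
  · rw [e, RS.d, deriv_const_mul_field]
    exact mul_ne_zero (inv_ne_zero ha) (RS.d_e_ne (P1.mem _))
  · simp only [P1_d_coe, sc_coe, P1_e_coe]
    simpa using ha

theorem mon_sc (a : ℂ) (d e : ℕ) (y : OnePoint ℂ) :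
    y.elim (a ^ d) (fun _ => 1) * mon d e (sc a y) = a ^ e * mon d e y := by
  induction y using OnePoint.rec with
  | coe z => simp [mul_pow]
  | infty => by_cases h : e = d <;> simp [h]

/-- the lift of the scaling to `O d` -/
theorem sc_mem {a : ℂ} (ha : a ≠ 0) (d : ℤ) :
    (fun y : OnePoint ℂ => y.elim (a ^ d) fun _ => 1) ∈ (O d / (liso_sc ha).pb (O d)).Γ := fun x => by
  induction x using OnePoint.rec with
  | coe b =>
    refine (analyticAt_const (v := (1 : ℂ))).congr (.of_forall fun t => ?_)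
    simp [P1_loc_coe]
  | infty =>
    refine (analyticAt_const (v := a ^ d)).congr (.of_forall fun t => ?_)
    by_cases h : t = 0
    · simp [h]
    · have e : sc a (iv t) = iv (t / a) := by
        rw [iv_ne h, iv_ne (div_ne_zero h ha), sc_coe, inv_div, div_eq_mul_inv]
      rw [P1_loc_infty, LB.div_φ, LIso.pb_φ, sc_infty, e, O_φ_infty _ h,
        O_φ_infty _ (div_ne_zero h ha), iv_ne h]
      simp [div_eq_mul_inv, mul_zpow, zpow_ne_zero _ h]

/-- an automorphism that fixes infinity is affine -/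
theorem exists_affine {f : OnePoint ℂ → OnePoint ℂ} (h : LIso P1 P1 f) (hf : Injective f)
    (h0 : f ∞ = ∞) : ∃ a b : ℂ, a ≠ 0 ∧ ∀ z : ℂ, f z = (a * z + b : ℂ) := by
  obtain ⟨u, u1, -, u2⟩ := h.exists_pt hf ∞
  have := LB.mul_mem u1 (h.pb_mem (mon_mem (d := 1) le_rfl))
  rw [h0, Nat.cast_one, O_one, div_mul_cancel, ← O_one] at this
  obtain ⟨c, e⟩ := (mem_O (n := 2) rfl zero_le_one).1 this
  have k : ∀ z : ℂ, f z = (c 1 * z + c 0 : ℂ) := fun z => by
    obtain ⟨w, hw⟩ := ne_infty_iff_exists.1 (h0 ▸ hf.ne (coe_ne_infty z))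
    have := e z
    rw [Pi.mul_apply, u2 _ (coe_ne_infty z), ← hw, ev_apply] at this
    rw [← hw, coe_eq_coe]
    simpa [mul_comm, add_comm] using this
  exact ⟨c 1, c 0, fun a => zero_ne_one (coe_injective (hf (a₁ := (0 : ℂ)) (a₂ := (1 : ℂ))
    (by simp [k, a]))), k⟩

/-- an automorphism that fixes zero and infinity is a scaling -/
theorem eq_sc {f : OnePoint ℂ → OnePoint ℂ} (h : LIso P1 P1 f) (hf : Injective f) (h0 : f ∞ = ∞)
    (h1 : f (0 : ℂ) = (0 : ℂ)) : ∃ a : ℂ, a ≠ 0 ∧ f = sc a := by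
  obtain ⟨a, b, c, e⟩ := exists_affine h hf h0
  obtain rfl : b = 0 := by simpa [e] using h1
  exact ⟨a, c, funext fun y => by induction y using OnePoint.rec <;> simp [e, h0]⟩

end Vale.Agent.P269.P1
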