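import Vale.Agent.P269.P1.Std
import Vale.Agent.P269.Pt.Fld

/-!
# The diagonal torus acting on the standard points
-/

set_option linter.unusedSectionVars false

namespace Vale.Agent.P269.P1

open Set Function Topology Filter Module Cv Base Ch
open OnePoint hiding some map_smul

/-- a diagonal matrix -/
noncomputable def diag {n : ℕ} (c : Fin n → ℂ) : (Fin n → ℂ) →L[ℂ] Fin n → ℂ :=
  ContinuousLinearMap.pi fun j => c j • ContinuousLinearMap.proj j

@[simp] theorem diag_apply {n : ℕ} (c v : Fin n → ℂ) (j : Fin n) : diag c v j = c j * v j := rfl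

theorem an_diag {P : Type*} [NormedAddCommGroup P] [NormedSpace ℂ P] {n : ℕ} {c : P → Fin n → ℂ}
    {p : P} (h : ∀ j, AnalyticAt ℂ (fun y => c y j) p) : AnalyticAt ℂ (fun y => diag (c y)) p :=
  ((LinearMap.toContinuousLinearMap (⟨⟨diag, fun _ _ => by ext; simp [add_mul]⟩, fun _ _ => by
    ext; simp [mul_assoc]⟩ : (Fin n → ℂ) →ₗ[ℂ] _)).analyticAt _).comp (analyticAt_pi_iff.2 h)

theorem continuous_diag {P : Type*} [TopologicalSpace P] {n : ℕ} {c : P → Fin n → ℂ}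
    (h : ∀ j, Continuous fun y => c y j) : Continuous fun y => diag (c y) :=
  (continuous_iff_continuousAt.2 fun _ => (an_diag (c := id) fun j =>
    (ContinuousLinearMap.proj (R := ℂ) (φ := fun _ => ℂ) j).analyticAt _).continuousAt).comp
      (continuous_pi h)

/-- the weight of the scaling on the fibre of `O d` -/
noncomputable def wt (d : ℕ) (a : ℂ) (y : OnePoint ℂ) : ℂ := y.elim (a ^ d) fun _ => 1

@[simp] theorem wt_coe (d : ℕ) (a z : ℂ) : wt d a z = 1 := rfl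

@[simp] theorem wt_infty (d : ℕ) (a : ℂ) : wt d a ∞ = a ^ d := rfl

theorem wt_ne (d : ℕ) {a : ℂ} (h : a ≠ 0) (y : OnePoint ℂ) : wt d a y ≠ 0 := by
  induction y using OnePoint.rec <;> simp [h]

theorem wt_one (d : ℕ) (y : OnePoint ℂ) : wt d 1 y = 1 := by induction y using OnePoint.rec <;> simp

theorem wt_mul (d : ℕ) (a b : ℂ) (y : OnePoint ℂ) : wt d (a * b) y = wt d a y * wt d b y := by
  induction y using OnePoint.rec <;> simp [mul_pow]

theorem diag_ver (n : ℕ) (t a : ℂ) (y : OnePoint ℂ) : diag (fun j => t * a ^ (j : ℕ)) (ver n y) =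
    (t * wt (n - 1) a y) • ver n (sc a y) := funext fun j => by
  rw [diag_apply, Pi.smul_apply, smul_eq_mul, mul_assoc, mul_assoc, ver, ver, ← mon_sc]
  rfl

theorem diag_dver (n : ℕ) (t a z : ℂ) : diag (fun j => t * a ^ (j : ℕ)) (dver n z) =
    (t * a) • dver n (a * z) := funext fun j => by
  rcases j with ⟨_ | j, _⟩ <;> simp [dver, mul_pow]
  ring

theorem ev_diag {n : ℕ} {c a : ℂ} (ha : a ≠ 0) (y : OnePoint ℂ) (v : Fin n → ℂ) :
    ev n (sc a y) (diag (fun e => (c * a ^ (e : ℕ))⁻¹) v) = (c * wt (n - 1) a y)⁻¹ * ev n y v := by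
  simp only [ev_apply, Finset.mul_sum, diag_apply]
  refine Finset.sum_congr rfl fun j _ => ?_
  have : wt (n - 1) a y * ver n (sc a y) j = a ^ (j : ℕ) * ver n y j := mon_sc ..
  rw [eq_inv_mul_iff_mul_eq₀ (wt_ne _ ha y) |>.2 this]
  have := wt_ne (n - 1) ha y
  field_simp

variable {ι J ν : Type} [Fintype ι] [DecidableEq ι] [Fintype J] [Fintype ν] {ch : Ch ι J}
  {x x' : ch.W ν} {q q' : ν → OnePoint ℂ} {s s' : ch.A ν} {a : ℂ} {t : ι → ℂ}

variable (ch q a t) in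
/-- the diagonal element that induces the scaling by `a` and acts on `O(e_i)` through `t i` -/
noncomputable def dgA : ch.A ν :=
  (fun i => diag fun j => t i * a ^ (j : ℕ), fun l => diag fun e => (chr (ch.a l) t * a ^ (e : ℕ))⁻¹,
    fun n i => (t i * wt (ch.M i - 1) a (q n))⁻¹)

theorem dgA_one : dgA ch q 1 1 = 1 :=
  Prod.ext (funext fun i => by ext; simp [dgA]) (Prod.ext (funext fun l => by ext; simp [dgA])
    (funext₂ fun n i => by simp [dgA, wt_one]))

theorem dgA_mul (a' : ℂ) (t' : ι → ℂ) :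
    dgA ch q (a * a') (t * t') = dgA ch q a t * dgA ch q a' t' :=
  Prod.ext (funext fun i => by ext; simp [dgA]; ring) (Prod.ext (funext fun l => by
    ext; simp [dgA, chr_mul]; ring) (funext₂ fun n i => by simp [dgA, wt_mul]; ring))

theorem an_dgA {P : Type*} [NormedAddCommGroup P] [NormedSpace ℂ P] {a : P → ℂ} {t : P → ι → ℂ}
    {p : P} (ha : AnalyticAt ℂ a p) (ht : AnalyticAt ℂ t p) (a0 : a p ≠ 0) (t0 : ∀ i, t p i ≠ 0) :
    AnalyticAt ℂ (fun y => dgA ch q (a y) (t y)) p :=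
  (analyticAt_pi_iff.2 fun i => an_diag fun _ => (analyticAt_pi_iff.1 ht i).mul (ha.pow _)).prod
    ((analyticAt_pi_iff.2 fun _ => an_diag fun _ => (((analyticAt_chr _).comp ht).mul
      (ha.pow _)).inv (mul_ne_zero (chr_ne_zero t0) (pow_ne_zero _ a0))).prod
    (analyticAt_pi_iff.2 fun n => analyticAt_pi_iff.2 fun i => ((analyticAt_pi_iff.1 ht i).mul (by
      induction q n using OnePoint.rec
      exacts [ha.pow _, analyticAt_const])).inv (mul_ne_zero (t0 i) (wt_ne _ a0 _))))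

variable (ch q) in
/-- the diagonal homomorphism -/
noncomputable def dg : ℂˣ × (ι → ℂˣ) →* (ch.A ν)ˣ :=
  MonoidHom.toHomUnits ⟨⟨fun p => dgA ch q p.1 fun i => p.2 i, dgA_one⟩, fun _ _ => dgA_mul _ _⟩

theorem coe_dg (p : ℂˣ × (ι → ℂˣ)) : (dg ch q p : ch.A ν) = dgA ch q p.1 fun i => p.2 i := rfl

theorem continuous_dg : Continuous (dg ch q) := by
  have : Continuous fun p : ℂˣ × (ι → ℂˣ) => (dg ch q p : ch.A ν) :=
    continuous_iff_continuousAt.2 fun p => ContinuousAt.comp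
      (f := fun p : ℂˣ × (ι → ℂˣ) => ((p.1 : ℂ), fun i => (p.2 i : ℂ))) (an_dgA analyticAt_fst
        analyticAt_snd p.1.ne_zero fun i => (p.2 i).ne_zero).continuousAt (by fun_prop)
  exact Units.continuous_iff.2 ⟨this, (this.comp continuous_inv).congr fun p => by simp⟩

theorem isUnit_dgA (ha : a ≠ 0) (ht : ∀ i, t i ≠ 0) : IsUnit (dgA ch q a t) :=
  (dg ch q (Units.mk0 a ha, fun i => Units.mk0 _ (ht i))).isUnit

theorem dgA_par (y : OnePoint ℂ) : (fun i => (dgA ch q a t).1 i (par ch y i)) =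
    (fun i => t i * wt (ch.M i - 1) a y) • par ch (sc a y) := funext fun _ => diag_ver ..

theorem dgA_par_coe (z : ℂ) :
    (fun i => (dgA ch q a t).1 i (par ch z i)) = t • par ch (a * z : ℂ) := by
  simpa using dgA_par (ch := ch) (q := q) (a := a) (t := t) z

theorem ev_dgA (ha : a ≠ 0) (l : Option J) (z : ℂ) (v : ch.E l) :
    ev _ (a * z : ℂ) ((dgA ch q a t).2.1 l v) = (chr (ch.a l) t)⁻¹ * ev _ z v :=
  (ev_diag ha z v).trans (by simp)

theorem Gz.dgA_inj (r : Gz ch ν) {a' : ℂ} {t' : ι → ℂ} (ht : t ch.o ≠ 0)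
    (h : (dgA ch q a t).1 = (dgA ch q a' t').1) : a = a' ∧ t = t' := by
  have k : ∀ i (j : Fin (ch.M i)), t i * a ^ (j : ℕ) = t' i * a' ^ (j : ℕ) := fun i j => by
    simpa [dgA] using congrArg (fun s => s i 1 j) h
  obtain rfl : t = t' := funext fun i => by simpa using k i ⟨0, Nat.pos_of_ne_zero (r.M_ne i)⟩
  exact ⟨by simpa [ht] using k ch.o ⟨1, r.two_le⟩, rfl⟩

theorem Gz.dg_injective (r : Gz ch ν) : Injective (dg ch q) := fun p p' e => by
  obtain ⟨a, b⟩ := r.dgA_inj (p.2 _).ne_zero (congrArg (fun s : (ch.A ν)ˣ => s.1.1) e)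
  exact Prod.ext (Units.ext a) (funext fun i => Units.ext (congrFun b i))

/-- the factor by which `gq q` is multiplied: `a` to the number of finite marked points -/
noncomputable def nf (q : ν → OnePoint ℂ) (a : ℂ) : ℂ := ∏ n, (q n).elim 1 fun _ => a

theorem nf_ne (ha : a ≠ 0) : nf q a ≠ 0 :=
  Finset.prod_ne_zero_iff.2 fun n _ => by induction q n using OnePoint.rec <;> simp [ha]

theorem gq_sc (a z : ℂ) : gq (sc a ∘ q) (a * z) = nf q a * gq q z := by
  rw [gq, gq, nf, ← Finset.prod_mul_distrib]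
  refine Finset.prod_congr rfl fun n _ => ?_
  rw [comp_apply]
  induction q n using OnePoint.rec <;> simp [mul_sub]

section

variable (ha : a ≠ 0) (ht : ∀ i, t i ≠ 0)
include ha ht

/-- the action on the fields -/
theorem ev_act_X (j : J) (μ : Tens ch.M (ch.b j)) (z : ℂ) :
    ev _ (a * z : ℂ) ((act (dgA ch q a t) x).X j μ) =
      (chr (ch.a (some j)) t)⁻¹ * ev _ z (x.X j (sub (dgA ch q a t) _ μ)) :=
  ev_dgA (q := q) (t := t) ha (some j) z _

theorem Std.Q_dgA (h : Std x q') (l : Option J) (μ : Tens ch.M (ch.a l)) (z : ℂ) :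
    ev _ z ((act (dgA ch q a t) x).Q l μ) = val μ (par ch z) := by
  obtain ⟨z, rfl⟩ := mul_left_surjective₀ ha z
  beta_reduce
  rw [act_Q, ev_dgA ha, h.Q, Ch.val_sub, dgA_par_coe, Base.val_smul,
    inv_mul_cancel_left₀ (chr_ne_zero ht)]

theorem Std.p_dgA (h : Std x q) (n : ν) : (act (dgA ch q a t) x).p n = par ch (sc a (q n)) := by
  rw [act_p, h.p, dgA_par]
  exact Dict.inv_smul (fun i => mul_ne_zero (ht i) (wt_ne _ ha _)) _

theorem Std.Ξ_dgA (h : Std x q) (μ : Tn ch.M ch.slot) (z : ℂ) :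
    (∏ i, t i ^ ch.χ i) * nf q a ^ ch.k * ev _ z ((act (dgA ch q a t) x).Ξ μ) =
      a ^ ch.k * (gq (sc a ∘ q) z ^ ch.k * wedge μ (par ch z) (dpar ch z)) := by
  obtain ⟨z, rfl⟩ := mul_left_surjective₀ ha z
  beta_reduce
  have := chr_ne_zero (a := ch.bω) ht
  have := ht ch.o
  have : ∏ i, t i ^ ch.χ i ≠ 0 := Finset.prod_ne_zero_iff.2 fun i _ => zpow_ne_zero _ (ht i)
  rw [act_Ξ, ev_dgA ha, h.Ξ, wedge_sub, dgA_par_coe, wedge_smul μ t _ (dpar ch (a * z)) _ (a := 0)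
    (b := t ch.o * a) ((diag_dver ..).trans (by simp [dpar])), gq_sc, chr_χ t ht]
  simp only [mul_pow]
  field_simp

/-- **the diagonal elements permute the standard points** -/
theorem Std.act_dgA (h : Std x q) (hc : (∏ i, t i ^ ch.χ i) * nf q a ^ ch.k = a ^ ch.k) :
    Std (act (dgA ch q a t) x) (sc a ∘ q) :=
  ⟨(scE (Units.mk0 a ha)).injective.comp h.inj, h.Q_dgA ha ht, h.p_dgA ha ht, fun μ z =>
    mul_left_cancel₀ (pow_ne_zero ch.k ha) (by rw [← h.Ξ_dgA ha ht, hc])⟩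

/-- the diagonal elements fix the curve part when the marked points are fixed -/
theorem Std.fix_dgA (h : Std x q) (hc : (∏ i, t i ^ ch.χ i) * nf q a ^ ch.k = a ^ ch.k)
    (hq : ∀ n, sc a (q n) = q n) : (act (dgA ch q a t) x).Q = x.Q ∧
      (act (dgA ch q a t) x).p = x.p ∧ (act (dgA ch q a t) x).Ξ = x.Ξ :=
  h.unique (by simpa only [show sc a ∘ q = q from funext hq] using h.act_dgA ha ht hc)

theorem Std.cond_of (r : Gz ch ν) (h : Std x q) (h' : Std (act (dgA ch q a t) x) (sc a ∘ q)) :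
    (∏ i, t i ^ ch.χ i) * nf q a ^ ch.k = a ^ ch.k := by
  obtain ⟨z, hz⟩ := (ev_ne (sc a ∘ q)).exists
  obtain ⟨μ, e⟩ := exists_wedge_ne (r.par_ne z) (deriv_br_par (ch := ch) z ▸ r.isPar.imm z)
  exact mul_right_cancel₀ (mul_ne_zero (pow_ne_zero _ (gq_ne hz)) e)
    (by rw [← h.Ξ_dgA ha ht, h'.Ξ])

/-- the action on induced fields: `y (z)` becomes `t ^ (-wd) y (z / a)` -/
theorem ind_dgA {j : J} {y : ℂ → ℂ} (h : ∀ μ (z : ℂ), ev _ z (x.X j μ) = y z * val μ (par ch z))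
    (μ : Tens ch.M (ch.b j)) (z : ℂ) : ev _ z ((act (dgA ch q a t) x).X j μ) =
      (∏ i, t i ^ ch.wd j i)⁻¹ * y (z / a) * val μ (par ch z) := by
  obtain ⟨z, rfl⟩ := mul_left_surjective₀ ha z
  beta_reduce
  have := chr_ne_zero (a := ch.b j) ht
  rw [ev_act_X ha ht, h, Ch.val_sub, dgA_par_coe, Base.val_smul, chr_wd ht, mul_div_cancel_left₀ _ ha]
  field_simp

end

/-- induced fields at a standard point can be tested at the finite points -/
theorem Gz.ind_iff (r : Gz ch ν) {j : J} {y : OnePoint ℂ → ℂ} :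
    Ind x (par ch) (evs ch) j y ↔ y ∈ (O (∑ i, ch.wd j i * ch.m i)).Γ ∧
      ∀ μ (z : ℂ), ev _ z (x.X j μ) = y z * val μ (par ch z) := by
  obtain ⟨x₀, h, -⟩ := r.exists_std (ν := ν) (q := fun n => ((Fintype.equivFin ν n : ℕ) : ℂ))
    (coe_injective.comp (Nat.cast_injective.comp (Fin.val_injective.comp (Equiv.injective _)))) 0
  refine ⟨fun a => ⟨bz_Os (ch := ch) _ ▸ ((h.exists_cr r).choose_spec.2.field_mem a).1,
    fun μ z => a z μ⟩, fun ⟨a, b⟩ w μ => congrFun (eq_of_coe (r.evs_mem (some j) (x.X j μ))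
      (t := y * fun w => val μ (par ch w)) ?_ (b μ)) w⟩
  have := LB.mul_mem (bz_Os (ch := ch) _ ▸ a) (val_mem r.full.sec μ).1
  rwa [← bz_add, show (ch.wd j + fun i => (ch.b j i : ℤ)) = fun i => (ch.a (some j) i : ℤ) from
    funext fun i => sub_add_cancel _ _] at this

theorem ext_act (hs : IsUnit s) (hQ : ∀ l, Surjective (x.Q l)) (hp : ∀ n i, x.p n i ≠ 0)
    (h1 : s.1 = s'.1) (h2 : (act s x).Q = (act s' x).Q) (h3 : (act s x).p = (act s' x).p) :
    s = s' := by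
  refine Prod.ext h1 (Prod.ext (funext fun l => ContinuousLinearMap.ext
    (((hQ l).comp (sub_surj hs _)).forall.2 fun μ => ?_)) (funext fun n => ?_))
  · have := congrArg (fun Q => Q l μ) h2
    simp only [act_Q] at this
    rw [comp_apply, this, sub, sub, h1]
  · have := congrFun h3 n
    rw [act_p, act_p, ← h1] at this
    exact Dict.smul_cancel (fun i => (map_ne_zero_iff _
      (LeftInverse.injective (inv_ap (isUnit_fst hs i)))).2 (hp n i)) this

/-- **the stabiliser**: a unit that maps a standard point to a standard point and fixes zero and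
infinity is diagonal -/
theorem Std.eq_dgA (r : Gz ch ν) (h : Std x q) (hs : IsUnit s) (h' : Std (act s x) q')
    (h0 : Orb (par ch (0 : ℂ)) fun i => s.1 i (par ch (0 : ℂ) i))
    (h1 : Orb (par ch ∞) fun i => s.1 i (par ch ∞ i)) : ∃ (a : ℂ) (t : ι → ℂ), a ≠ 0 ∧
      (∀ i, t i ≠ 0) ∧ s = dgA ch q a t ∧ q' = sc a ∘ q ∧
        (∏ i, t i ^ ch.χ i) * nf q a ^ ch.k = a ^ ch.k := by
  have p1 := ((h.exists_cr r).choose_spec.2.act hs).par
  obtain ⟨f, c, hf, e, c0, cm⟩ := p1.exists_map (h'.isPar r)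
  obtain ⟨a, ha, rfl⟩ := eq_sc hf (fun y y' d => by
    simpa using p1.inj y y' ((c y')⁻¹ * c y) (by rw [mul_smul, ← e, d, e, Dict.inv_smul (c0 _)]))
    (r.eq_of_orb (h1.trans ⟨_, c0 _, e _⟩)).symm (r.eq_of_orb (h0.trans ⟨_, c0 _, e _⟩)).symm
  choose t ht using fun i => const_of_mem (R := P1) (by
    have := LB.mul_mem (cm i) (sc_mem ha (ch.m i))
    rwa [show Os ch i = O (ch.m i) from rfl, div_mul_div_cancel, div_self'] at this)
  have ct : ∀ z : ℂ, c z = t := fun z => funext fun i => by simpa using congrFun (ht i) z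
  have t0 : ∀ i, t⁻¹ i ≠ 0 := fun i => inv_ne_zero (ct 0 ▸ c0 _ i)
  have e1 : s.1 = (dgA ch q a t⁻¹).1 := funext fun i => ext_verL fun z =>
    congrFun ((Dict.inv_smul (c0 z) _).symm.trans ((congrArg₂ _ (congrArg _ (ct z))
      (e z).symm).trans (dgA_par_coe z).symm)) i
  have e2 : q' = sc a ∘ q := funext fun n => r.eq_of_orb (h'.p n ▸ (orb_p hs n).symm.trans
    (h.p n ▸ ⟨_, c0 _, e _⟩))
  obtain rfl : s = dgA ch q a t⁻¹ := ext_act hs (h.Q_surj r) (fun n => h.p n ▸ r.par_ne _) e1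
    (funext fun l => ContinuousLinearMap.ext fun μ => ev_ext' fun z => by
      rw [h'.Q, h.Q_dgA ha t0]) (funext fun n => by rw [h'.p, h.p_dgA ha t0, e2, comp_apply])
  exact ⟨a, _, ha, t0, rfl, e2, h.cond_of ha t0 r (e2 ▸ h')⟩

/-! ### the subgroup that fixes `Ξ` -/

variable (q) in
/-- `nf` as a homomorphism -/
noncomputable def nfU : ℂˣ →* ℂˣ := MonoidHom.toHomUnits ⟨⟨fun a => nf q a,
  Finset.prod_eq_one fun n _ => by induction q n using OnePoint.rec <;> simp⟩, fun a b =>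
    (Finset.prod_congr rfl fun n _ => by induction q n using OnePoint.rec <;> simp).trans
      Finset.prod_mul_distrib⟩

theorem coe_nfU (a : ℂˣ) : (nfU q a : ℂ) = nf q a := rfl

variable (ch q) in
/-- the normalisation by scalars -/
noncomputable def nrm : ℂˣ × (ι → ℂˣ) →* ℂˣ × (ι → ℂˣ) where
  toFun p := (p.1, fun i => p.2 i * ((p.1 / nfU q p.1) ^ ch.k / ∏ j, p.2 j ^ ch.χ j))
  map_one' := by simp; rfl
  map_mul' p p' := Prod.ext rfl (funext fun i => by
    simp only [Prod.fst_mul, Prod.snd_mul, Pi.mul_apply, map_mul, mul_zpow, mul_div_mul_comm,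
      Finset.prod_mul_distrib, mul_pow]
    ac_rfl)

theorem prod_nrm (p : ℂˣ × (ι → ℂˣ)) (c : ι → ℤ) : ∏ i, (nrm ch q p).2 i ^ c i =
    (∏ i, p.2 i ^ c i) * ((p.1 / nfU q p.1) ^ ch.k / ∏ j, p.2 j ^ ch.χ j) ^ ∑ i, c i := by
  simp only [nrm, MonoidHom.coe_mk, OneHom.coe_mk, mul_zpow, Finset.prod_mul_distrib]
  exact congrArg _ (map_prod (zpowersHom _ ((p.1 / nfU q p.1) ^ ch.k / ∏ j, p.2 j ^ ch.χ j))
    (fun i => Multiplicative.ofAdd (c i)) _).symm

theorem cond_iff (p : ℂˣ × (ι → ℂˣ)) :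
    (∏ i, (p.2 i : ℂ) ^ ch.χ i) * nf q p.1 ^ ch.k = p.1 ^ ch.k ↔
      ∏ i, p.2 i ^ ch.χ i = (p.1 / nfU q p.1) ^ ch.k := by
  rw [div_pow, eq_div_iff_mul_eq', ← Units.val_inj]
  simp [coe_nfU]

theorem Gz.cond_nrm (r : Gz ch ν) (p : ℂˣ × (ι → ℂˣ)) :
    (∏ i, ((nrm ch q p).2 i : ℂ) ^ ch.χ i) * nf q p.1 ^ ch.k = p.1 ^ ch.k :=
  (cond_iff (nrm ch q p)).2 (by rw [prod_nrm, r.one, zpow_one, mul_div_cancel]; rfl)

theorem nrm_eq {p : ℂˣ × (ι → ℂˣ)}
    (h : (∏ i, (p.2 i : ℂ) ^ ch.χ i) * nf q p.1 ^ ch.k = p.1 ^ ch.k) : nrm ch q p = p :=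
  Prod.ext rfl (funext fun i => by
    simp only [nrm, MonoidHom.coe_mk, OneHom.coe_mk, (cond_iff p).1 h, div_self', mul_one])

theorem nrm_mul (r : Gz ch ν) (p : ℂˣ × (ι → ℂˣ)) (c : ℂˣ) :
    nrm ch q (p.1, fun i => p.2 i * c) = nrm ch q p := by
  have : nrm ch q (1, fun _ => c) = 1 := Prod.ext rfl (funext fun i => by
    simp only [nrm, MonoidHom.coe_mk, OneHom.coe_mk, map_one, div_one, one_pow]
    rw [show ∏ j, c ^ ch.χ j = c ^ ∑ j, ch.χ j from (map_prod (zpowersHom _ c)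
      (fun i => Multiplicative.ofAdd (ch.χ i)) _).symm, r.one]
    simp)
  rw [← mul_one (nrm ch q p), ← this, ← map_mul]
  exact congrArg _ (Prod.ext (mul_one _).symm rfl)

theorem continuous_nrm : Continuous (nrm ch q) := by
  have : Continuous fun a : ℂˣ => (nfU q a : ℂ) := continuous_finsetProd _ fun n _ => by
    induction q n using OnePoint.rec
    exacts [continuous_const, Units.continuous_val]
  have : Continuous (nfU q) :=
    Units.continuous_iff.2 ⟨this, (this.comp continuous_inv).congr fun p => by simp⟩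
  change Continuous fun p : ℂˣ × (ι → ℂˣ) =>
    (p.1, fun i => p.2 i * ((p.1 / nfU q p.1) ^ ch.k / ∏ j, p.2 j ^ ch.χ j))
  fun_prop

section opt

variable {R : Type} [Fintype R] [DecidableEq R] {ch : Ch (Option R) J} {x : ch.W ν} {s : ch.A ν}

/-- the torus `ℂˣ × (ℂˣ)^R` inside the diagonal torus -/
noncomputable def tR (ch : Ch (Option R) J) (q : ν → OnePoint ℂ) :
    ℂˣ × (R → ℂˣ) →* ℂˣ × (Option R → ℂˣ) :=
  (nrm ch q).comp ⟨⟨fun p => (p.1, fun o => o.elim 1 p.2), Prod.ext rfl (funext fun o => by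
    cases o <;> rfl)⟩, fun _ _ => Prod.ext rfl (funext fun o => by cases o <;> simp)⟩

/-- **the diagonal homomorphism** `ℂˣ × (ℂˣ)^R → G` -/
noncomputable def dgR (ch : Ch (Option R) J) (q : ν → OnePoint ℂ) :
    ℂˣ × (R → ℂˣ) →* (ch.A ν)ˣ := (dg ch q).comp (tR ch q)

theorem tR_fst (p : ℂˣ × (R → ℂˣ)) : (tR ch q p).1 = p.1 := rfl

theorem tR_some (p : ℂˣ × (R → ℂˣ)) (i : R) :
    (tR ch q p).2 (some i) = p.2 i * (tR ch q p).2 none :=
  congrArg (p.2 i * ·) (one_mul _).symm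

theorem tR_none (p : ℂˣ × (R → ℂˣ)) :
    (tR ch q p).2 none = (p.1 / nfU q p.1) ^ ch.k / ∏ i, p.2 i ^ ch.χ (some i) := by
  simp [tR, nrm, Fintype.prod_option]

theorem coe_dgR (p : ℂˣ × (R → ℂˣ)) :
    (dgR ch q p : ch.A ν) = dgA ch q p.1 fun i => (tR ch q p).2 i := rfl

theorem continuous_dgR : Continuous (dgR ch q) :=
  continuous_dg.comp (continuous_nrm.comp (continuous_fst.prodMk (continuous_pi fun o => by
    cases o
    exacts [continuous_const, (continuous_apply _).comp continuous_snd])))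

/-- the characters of total degree zero -/
theorem prod_tR (p : ℂˣ × (R → ℂˣ)) {c : Option R → ℤ} (hc : ∑ o, c o = 0) :
    ∏ o, (tR ch q p).2 o ^ c o = ∏ i, p.2 i ^ c (some i) := by
  refine (prod_nrm _ c).trans ?_
  simp [hc, Fintype.prod_option]

theorem Gz.dgR_injective (r : Gz ch ν) : Injective (dgR ch q) := fun p p' e => by
  have := r.dg_injective e
  refine Prod.ext (congrArg Prod.fst this :) (funext fun i => ?_)
  have a := tR_some (ch := ch) (q := q) p i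
  rwa [this, tR_some, mul_left_inj, eq_comm] at a

theorem Gz.cond_tR (r : Gz ch ν) (p : ℂˣ × (R → ℂˣ)) :
    (∏ i, ((tR ch q p).2 i : ℂ) ^ ch.χ i) * nf q p.1 ^ ch.k = p.1 ^ ch.k := r.cond_nrm _

theorem Std.act_dgR (r : Gz ch ν) (h : Std x q) (p : ℂˣ × (R → ℂˣ)) :
    Std (act (dgR ch q p : ch.A ν) x) (sc p.1 ∘ q) :=
  h.act_dgA p.1.ne_zero (fun _ => Units.ne_zero _) (r.cond_tR p)

/-- with marked points at zero and infinity the curve part is fixed -/
theorem Std.fix_dgR (r : Gz ch ν) (h : Std x q) (hq : ∀ n, q n = (0 : ℂ) ∨ q n = ∞)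
    (p : ℂˣ × (R → ℂˣ)) : (act (dgR ch q p : ch.A ν) x).Q = x.Q ∧
      (act (dgR ch q p : ch.A ν) x).p = x.p ∧ (act (dgR ch q p : ch.A ν) x).Ξ = x.Ξ :=
  h.fix_dgA p.1.ne_zero (fun _ => Units.ne_zero _) (r.cond_tR p) fun n => by
    rcases hq n with e | e <;> simp [e]

theorem Std.eq_dgR (r : Gz ch ν) (h : Std x q) (hs : IsUnit s) (h' : Std (act s x) q')
    (h0 : Orb (par ch (0 : ℂ)) fun i => s.1 i (par ch (0 : ℂ) i))
    (h1 : Orb (par ch ∞) fun i => s.1 i (par ch ∞ i)) :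
    ∃ p : ℂˣ × (R → ℂˣ), s = dgR ch q p ∧ q' = sc p.1 ∘ q := by
  obtain ⟨a, t, ha, ht, rfl, e, c⟩ := h.eq_dgA r hs h' h0 h1
  let p : ℂˣ × (Option R → ℂˣ) := (Units.mk0 a ha, fun i => Units.mk0 _ (ht i))
  refine ⟨(p.1, fun i => p.2 (some i) / p.2 none), congrArg (fun p => (dg ch q p : ch.A ν))
    (a₂ := tR ch q _) ((nrm_eq (p := p) c).symm.trans ((nrm_mul r p (p.2 none)⁻¹).symm.trans
      (congrArg (nrm ch q) (Prod.ext rfl (funext fun o => ?_))))), e⟩
  cases o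
  exacts [mul_inv_cancel _, (div_eq_mul_inv _ _).symm]

end opt

end Vale.Agent.P269.P1
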