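import Vale.Agent.P269.P1.Diag

/-!
# The infinitesimal action; vector fields on the rational normal curve
-/

set_option linter.unusedSectionVars false

namespace Vale.Agent.P269.P1

open Set Function Topology Filter Module Cv Base Ch
open OnePoint hiding some map_smul

section inf

variable {ι J ν : Type} [Fintype ι] [DecidableEq ι] [Fintype J] [Fintype ν] {ch : Ch ι J}
  (x : ch.W ν) (ξ : ch.A ν)

/-- the infinitesimal substitution -/
noncomputable def dsub {σ : Type} [Fintype σ] (τ : σ → ι) : Tn ch.M τ →L[ℂ] Tn ch.M τ :=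
  fderiv ℂ (fun s => sub s τ) 1 ξ

/-- the infinitesimal action -/
noncomputable def dact : ch.A ν →L[ℂ] ch.W ν := fderiv ℂ (fun s => act s x) 1

theorem inf_eq {S : Set (ch.W ν)} [Holo.IsAct act S] (x : Holo.Sp act S) :
    Holo.inf (Holo.expU : ch.A ν → _) Holo.Sp.val x = dact x.val := Holo.Sp.inf_eq x

/-- the line through `1` -/
noncomputable def ln (ε : ℂ) : ch.A ν := 1 + ε • ξ

theorem ln_zero : ln ξ 0 = 1 := by rw [ln, zero_smul ℂ ξ, add_zero]

theorem hasDerivAt_ln {F : Type*} [NormedAddCommGroup F] [NormedSpace ℂ F] {f : ch.A ν → F}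
    (h : AnalyticAt ℂ f 1) : HasDerivAt (fun ε => f (ln ξ ε)) (fderiv ℂ f 1 ξ) 0 :=
  h.differentiableAt.hasFDerivAt.hasLineDerivAt ξ

theorem hasDerivAt_sub {σ : Type} [Fintype σ] (τ : σ → ι) (μ : Tn ch.M τ) :
    HasDerivAt (fun ε : ℂ => sub (ln ξ ε) τ μ) (dsub ξ τ μ) 0 := by
  have := (ContinuousLinearMap.apply ℂ (Tn ch.M τ) μ).hasFDerivAt.comp_hasDerivAt (0 : ℂ)
    (hasDerivAt_ln ξ (f := fun s => sub s τ) (an_sub analyticAt_id τ))
  exact this

theorem hasDerivAt_act : HasDerivAt (fun ε : ℂ => act (ln ξ ε) x) (dact x ξ) 0 :=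
  hasDerivAt_ln ξ (f := fun s => act s x) (an_act analyticAt_id analyticAt_const)

theorem hasDerivAt_line {F : Type*} [NormedAddCommGroup F] [NormedSpace ℂ F] (a b : F) :
    HasDerivAt (fun ε : ℂ => a + ε • b) b 0 := by
  simpa using ((hasDerivAt_id (0 : ℂ)).smul_const b).const_add a

theorem dact_of {σ : Type} [Fintype σ] {τ : σ → ι} {l : Option J}
    (L : ch.W ν →L[ℂ] Tn ch.M τ →L[ℂ] ch.E l) (μ : Tn ch.M τ)
    (h : ∀ s, L (act s x) μ = s.2.1 l (L x (sub s τ μ))) :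
    L (dact x ξ) μ = ξ.2.1 l (L x μ) + L x (dsub ξ τ μ) := by
  have h1 : HasDerivAt (fun ε => L (act (ln ξ ε) x) μ) (L (dact x ξ) μ) 0 :=
    (L.flip μ).hasFDerivAt.comp_hasDerivAt _ (hasDerivAt_act x ξ)
  have h2 := (hasDerivAt_line 1 (ξ.2.1 l)).clm_apply
    ((L x).hasFDerivAt.comp_hasDerivAt _ (hasDerivAt_sub ξ τ μ))
  simp only [h] at h1
  simpa [ln_zero, sub_one] using h1.unique h2

theorem dact_Q (l : Option J) (μ : Tens ch.M (ch.a l)) :
    (dact x ξ).Q l μ = ξ.2.1 l (x.Q l μ) + x.Q l (dsub ξ _ μ) :=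
  dact_of x ξ (W.QL l) μ fun _ => rfl

theorem dact_Ξ (μ : Tn ch.M ch.slot) :
    (dact x ξ).Ξ μ = ξ.2.1 none (x.Ξ μ) + x.Ξ (dsub ξ _ μ) := dact_of x ξ W.XiL μ fun _ => rfl

theorem dact_X (j : J) (μ : Tens ch.M (ch.b j)) :
    (dact x ξ).X j μ = ξ.2.1 (some j) (x.X j μ) + x.X j (dsub ξ _ μ) :=
  dact_of x ξ (W.XL j) μ fun _ => rfl

theorem hasDerivAt_fst (c : V ch.M) :
    HasDerivAt (fun (ε : ℂ) i => (ln ξ ε).1 i (c i)) (fun i => ξ.1 i (c i)) 0 :=
  hasDerivAt_line c _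

theorem dact_p (n : ν) : (dact x ξ).p n = ξ.2.2 n • x.p n + fun i => ξ.1 i (x.p n i) := by
  have h1 := (W.pL n).hasFDerivAt.comp_hasDerivAt _ (hasDerivAt_act x ξ)
  have h2 := (hasDerivAt_line 1 (ξ.2.2 n)).smul (hasDerivAt_fst ξ (x.p n))
  simpa [add_comm, ln_zero] using h1.unique h2

theorem dsub_of_eq {σ : Type} [Fintype σ] (τ : σ → ι) (h : ∀ i, ξ.1 i = 0) : dsub ξ τ = 0 :=
  ContinuousLinearMap.ext fun μ => (hasDerivAt_sub ξ τ μ).unique (by
    have : ∀ ε : ℂ, sub (ln ξ ε) τ μ = μ := fun ε => ContinuousMultilinearMap.ext fun v =>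
      congrArg μ (funext fun r => show v r + ε • ξ.1 (τ r) (v r) = v r by simp [h])
    simpa only [this] using! hasDerivAt_const _ μ)

variable {ξ}

theorem val_dsub {a : ι → ℕ} (μ : Tens ch.M a) {c : ℂ → V ch.M}
    (hc : HasDerivAt c (fun i => ξ.1 i (c 0 i)) 0) :
    HasDerivAt (fun ε => val μ (c ε)) (val (dsub ξ _ μ) (c 0)) 0 := by
  have h := (analyticAt_val μ (c 0)).differentiableAt.hasFDerivAt
  have h1 := (evL a (c 0)).hasFDerivAt.comp_hasDerivAt _ (hasDerivAt_sub ξ _ μ)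
  have h2 := h.comp_hasDerivAt_of_eq _ (hasDerivAt_fst ξ (c 0)) (by rw [ln_zero]; rfl)
  exact (h.comp_hasDerivAt _ hc).congr_deriv (h1.unique h2).symm

theorem wedge_dsub (μ : Tn ch.M ch.slot) {c v : ℂ → V ch.M}
    (hc : HasDerivAt c (fun i => ξ.1 i (c 0 i)) 0) (hv : HasDerivAt v (fun i => ξ.1 i (v 0 i)) 0) :
    HasDerivAt (fun ε => wedge μ (c ε) (v ε)) (wedge (dsub ξ _ μ) (c 0) (v 0)) 0 := by
  have h := (an_wedge (analyticAt_const (v := μ)) analyticAt_fst analyticAt_snd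
    (p := (c 0, v 0))).differentiableAt.hasFDerivAt
  have h1 := (wedgeL (c 0) (v 0)).hasFDerivAt.comp_hasDerivAt _ (hasDerivAt_sub ξ _ μ)
  have h2 := h.comp_hasDerivAt_of_eq _ ((hasDerivAt_fst ξ (c 0)).prodMk (hasDerivAt_fst ξ (v 0)))
    (by rw [ln_zero]; rfl)
  simp only [comp_def, wedgeL_apply, wedge_sub] at h1
  exact (h.comp_hasDerivAt _ (hc.prodMk hv)).congr_deriv (h1.unique h2).symm

theorem hasDerivAt_chr (a : ι → ℕ) (s : ι → ℂ) :
    HasDerivAt (fun ε : ℂ => chr a (1 + ε • s)) (∑ i, a i * s i) 0 := by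
  simpa [chr] using HasDerivAt.fun_finsetProd (u := Finset.univ) (x := (0 : ℂ))
    fun i _ => (((hasDerivAt_id (0 : ℂ)).mul_const (s i)).const_add 1).fun_pow (a i)

end inf

section vf

variable {n : ℕ} {α : ℂ} {v : Fin 3 → ℂ}

/-- a coordinate, or zero -/
noncomputable def xt (n i : ℕ) : (Fin n → ℂ) →L[ℂ] ℂ :=
  if h : i < n then ContinuousLinearMap.proj ⟨i, h⟩ else 0

theorem xt_ver {i : ℕ} (h : i < n) (y : OnePoint ℂ) : xt n i (ver n y) = mon (n - 1) i y := by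
  simp [xt, h, ver]

variable (n α v) in
/-- the lift of the vector field `(v 0 + v 1 z + v 2 z ^ 2) ∂_z`, plus the scalar `α` -/
noncomputable def vf : (Fin n → ℂ) →L[ℂ] Fin n → ℂ :=
  ContinuousLinearMap.pi fun j => (α + (j : ℕ) * v 1) • xt n j + ((j : ℕ) * v 0) • xt n (j - 1) +
    ((((j : ℕ) : ℂ) - (n - 1 : ℕ)) * v 2) • xt n (j + 1)

variable (n α v) in
/-- the radial component of `vf` -/
noncomputable def sw (y : OnePoint ℂ) : ℂ :=
  y.elim (α + (n - 1 : ℕ) * v 1) fun z => α - (n - 1 : ℕ) * v 2 * z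

/-- the tangent direction -/
noncomputable def nv (n : ℕ) (y : OnePoint ℂ) : Fin n → ℂ :=
  y.elim (fun j => if (j : ℕ) + 1 = n - 1 then -1 else 0) (dver n)

theorem ev_three (z : ℂ) (v : Fin 3 → ℂ) : ev 3 z v = v 0 + v 1 * z + v 2 * z ^ 2 := by
  simp [ev_apply, Fin.sum_univ_three]
  ring

theorem vf_ver (y : OnePoint ℂ) :
    vf n α v (ver n y) = sw n α v y • ver n y + ev 3 y v • nv n y := funext fun j => by
  have e : (((j : ℕ) : ℂ) - (n - 1 : ℕ)) * v 2 * xt n (j + 1) (ver n y) =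
      (((j : ℕ) : ℂ) - (n - 1 : ℕ)) * v 2 * mon (n - 1) (j + 1) y := by
    by_cases h : j + 1 < n
    · rw [xt_ver h]
    · simp [show n - 1 = j by omega]
  simp only [vf, ContinuousLinearMap.pi_apply, _root_.add_apply, _root_.smul_apply,
    smul_eq_mul, e, xt_ver j.2, xt_ver ((Nat.sub_le j 1).trans_lt j.2), Pi.add_apply, Pi.smul_apply]
  induction y using OnePoint.rec with
  | infty =>
    obtain ⟨j, h⟩ := j
    simp only [mon_infty, ver_infty, sw, nv, elim_infty, ev_infty 2]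
    by_cases a : j = n - 1
    · subst a
      rcases n with _ | _ | n <;> simp
    · rw [if_neg a, if_neg (show j - 1 ≠ n - 1 by omega)]
      split_ifs with b
      · simp [← b]
      · simp
  | coe z =>
    rcases j with ⟨_ | j, _⟩ <;> simp [ev_three, sw, nv, dver] <;> ring

theorem vf_coe (z : ℂ) : vf n α v (ver n z) =
    (α - (n - 1 : ℕ) * v 2 * z) • ver n z + ev 3 z v • dver n z := vf_ver _

theorem nv_indep (h : 2 ≤ n) {s w : ℂ} {y : OnePoint ℂ} (e : s • ver n y + w • nv n y = 0) :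
    w = 0 := by
  induction y using OnePoint.rec with
  | infty =>
    simpa [ver_infty, nv, show n - 2 ≠ n - 1 by omega, show n - 2 + 1 = n - 1 by omega]
      using congrFun e ⟨n - 2, by omega⟩
  | coe z =>
    have a : s = 0 := by simpa [nv, dver] using congrFun e ⟨0, by omega⟩
    simpa [nv, dver, a] using congrFun e ⟨1, h⟩

theorem vf_add (α' : ℂ) (v' : Fin 3 → ℂ) : vf n (α + α') (v + v') = vf n α v + vf n α' v' :=
  ext_verL fun z => by
    simp only [vf_coe, _root_.add_apply, map_add, Pi.add_apply]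
    module

theorem vf_smul (c : ℂ) : vf n (c * α) (c • v) = c • vf n α v :=
  ext_verL fun z => by
    simp only [vf_coe, _root_.smul_apply, map_smul, Pi.smul_apply]
    module

theorem vf_zero : vf n α 0 = α • 1 := ext_verL fun z => by simp [vf_coe]

/-- the action of the scalings on vector fields -/
noncomputable def adv (a : ℂ) (v : Fin 3 → ℂ) : Fin 3 → ℂ := ![a * v 0, v 1, a⁻¹ * v 2]

theorem ev_adv {a : ℂ} (ha : a ≠ 0) (z : ℂ) : ev 3 (a * z : ℂ) (adv a v) = a * ev 3 z v := by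
  simp [ev_three, adv]
  field_simp

theorem sw_adv {a : ℂ} (ha : a ≠ 0) (y : OnePoint ℂ) : sw n α (adv a v) (sc a y) = sw n α v y := by
  induction y using OnePoint.rec <;> simp [sw, adv]
  field_simp

theorem diag_vf {a : ℂ} (ha : a ≠ 0) (t : ℂ) : diag (fun j => t * a ^ (j : ℕ)) * vf n α v =
    vf n α (adv a v) * diag fun j => t * a ^ (j : ℕ) := ext_verL fun z => by
  have := sw_adv (n := n) (α := α) (v := v) ha z
  simp only [sw, sc_coe, elim_some] at this
  simp only [mul_apply_eq_comp, vf_coe, map_add, map_smul, diag_ver, diag_dver, sc_coe,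
    ev_adv ha, wt_coe, this]
  module

/-- the transpose -/
noncomputable def tr : ((Fin n → ℂ) →L[ℂ] Fin n → ℂ) →ₗ[ℂ] (Fin n → ℂ) →L[ℂ] Fin n → ℂ where
  toFun M := ContinuousLinearMap.pi fun e => ∑ j, M (Pi.single e 1) j • ContinuousLinearMap.proj j
  map_add' _ _ := by ext; simp [add_mul, Finset.sum_add_distrib]
  map_smul' _ _ := by ext; simp [mul_assoc, Finset.mul_sum]

theorem dot_tr (M : (Fin n → ℂ) →L[ℂ] Fin n → ℂ) (u c : Fin n → ℂ) :
    u ⬝ᵥ tr M c = M u ⬝ᵥ c := by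
  conv_rhs => rw [pi_eq_sum_univ' u]
  simp [tr, dotProduct, Finset.mul_sum, Finset.sum_mul, mul_assoc]
  exact Finset.sum_comm

theorem tr_mul (M M' : (Fin n → ℂ) →L[ℂ] Fin n → ℂ) : tr (M * M') = tr M' * tr M := by
  refine ContinuousLinearMap.ext fun c => dotProduct_eq _ _ fun u => ?_
  simp only [dotProduct_comm _ u, dot_tr, mul_apply_eq_comp]

theorem tr_diag (c : Fin n → ℂ) : tr (diag c) = diag c := by
  refine ContinuousLinearMap.ext fun c => dotProduct_eq _ _ fun u => ?_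
  rw [dotProduct_comm _ u, dot_tr]
  exact Finset.sum_congr rfl fun _ _ => by simp; ring

theorem ev_dot (y : OnePoint ℂ) (c : Fin n → ℂ) : ev n y c = ver n y ⬝ᵥ c := ev_apply ..

theorem hasDerivAt_ev (c : Fin n → ℂ) (z : ℂ) :
    HasDerivAt (fun z : ℂ => ev n z c) (dver n z ⬝ᵥ c) z := by
  simp only [ev_apply]
  exact HasDerivAt.fun_sum fun j _ => (hasDerivAt_pi.1 (hasDerivAt_ver n z) j).mul_const _

theorem ev_tr_vf (c : Fin n → ℂ) (z : ℂ) : ev n z (tr (vf n α v) c) =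
    (α - (n - 1 : ℕ) * v 2 * z) * ev n z c + ev 3 z v * deriv (fun z : ℂ => ev n z c) z := by
  rw [(hasDerivAt_ev c z).deriv, ev_dot, dot_tr, vf_coe, ev_dot z c]
  simp

end vf

end Vale.Agent.P269.P1
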