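import Vale.Agent.P269.P1.Inf

/-!
# The Lie algebra of the stabiliser of the curve part of a standard point
-/

set_option linter.unusedSectionVars false

namespace Vale.Agent.P269.P1

open Set Function Topology Filter Module Cv Base Ch
open OnePoint hiding some map_smul

theorem shift {F : Type*} [NormedAddCommGroup F] [NormedSpace ℂ F] {f : ℂ → F} {f' : F} {z : ℂ}
    (h : HasDerivAt f f' z) (w : ℂ) : HasDerivAt (fun ε : ℂ => f (z + ε • w)) (w • f') 0 :=
  h.scomp_of_eq _ (hasDerivAt_line z w) (by simp)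

theorem ld_pow {f : ℂ → ℂ} {a : ℂ} (h : HasDerivAt f (f 0 * a) 0) (k : ℕ) :
    HasDerivAt (fun ε => f ε ^ k) (f 0 ^ k * (k * a)) 0 :=
  (h.fun_pow k).congr_deriv (by cases k <;> simp; ring)

open Polynomial in
theorem natDegree_le_of {n j : ℕ} {P R : ℂ[X]} (hP : P.natDegree < n) (hj : j ≤ n)
    (h : ∀ z, z * P.eval z = z ^ j * R.eval z) : R.natDegree + j ≤ n := by
  by_cases h0 : R = 0
  · simpa [h0]
  · rw [← natDegree_X_pow_mul j h0, ← show X * P = X ^ j * R from
      Polynomial.funext fun z => by simp [h]]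
    exact natDegree_mul_le.trans (by rw [natDegree_X]; omega)

open Polynomial in
theorem exists_poly {n : ℕ} (M : (Fin n → ℂ) →L[ℂ] Fin n → ℂ) (j : Fin n) :
    ∃ P : ℂ[X], P.natDegree < n ∧ ∀ z : ℂ, P.eval z = M (ver n z) j :=
  ⟨ofFn n (tr M (Pi.single j 1)), ofFn_natDegree_lt j.pos _, fun z => by
    rw [← ev_coe, ev_dot, dot_tr, dotProduct_single_one]⟩

open Polynomial in
theorem natDegree_vf {n : ℕ} {M : (Fin n → ℂ) →L[ℂ] Fin n → ℂ} {A U : ℂ[X]}
    (h : ∀ (j : Fin n) (z : ℂ), z * M (ver n z) j = z ^ (j : ℕ) * (z * A.eval z + (j : ℕ) * U.eval z))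
    (j : Fin n) : (X * A + C ((j : ℕ) : ℂ) * U).natDegree + j ≤ n :=
  let ⟨_, a, b⟩ := exists_poly M j
  natDegree_le_of a j.2.le fun z => by simp [b, h]

open Polynomial in
/-- a matrix that is tangent to the cone over the rational normal curve -/
theorem eq_vf {n : ℕ} (hn : n ≠ 0) {M : (Fin n → ℂ) →L[ℂ] Fin n → ℂ} {A U : ℂ[X]} {v : Fin 3 → ℂ}
    (h : ∀ (j : Fin n) (z : ℂ), z * M (ver n z) j = z ^ (j : ℕ) * (z * A.eval z + (j : ℕ) * U.eval z))
    (hv : ∀ z : ℂ, U.eval z = ev 3 z v) : ∃ α, M = vf n α v := by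
  obtain ⟨a, b, e⟩ := exists_eq_X_add_C_of_natDegree_le_one
    (p := X * A + C ((n - 1 : ℕ) : ℂ) * U) (by have := natDegree_vf h ⟨n - 1, by omega⟩; grind)
  have e' := fun z => congrArg (Polynomial.eval z) e
  simp only [eval_add, eval_mul, eval_X, eval_C, hv, ev_three] at e'
  refine ⟨a - (n - 1 : ℕ) * v 1, ext_verL fun z => funext fun j => congrFun (eq_of_cofinite
    (f := fun z : ℂ => M (ver n z) j) (g := fun z : ℂ => vf n _ v (ver n z) j) ?_ ?_
    ((eventually_cofinite_ne 0).mono fun z hz => mul_left_cancel₀ hz ?_)) z⟩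
  iterate 2
    exact (continuous_apply j).comp ((ContinuousLinearMap.continuous _).comp
      (continuous_iff_continuousAt.2 fun z => (an_ver n z).continuousAt))
  have : z * dver n z j = (j : ℕ) * z ^ (j : ℕ) := by
    rcases j with ⟨_ | j, _⟩ <;> simp [dver]
    ring
  rw [h, vf_coe, hv, Pi.add_apply, Pi.smul_apply, Pi.smul_apply, ver_coe, ev_three]
  simp only [smul_eq_mul]
  linear_combination z ^ (j : ℕ) * (e' z - e' 0) - (v 0 + v 1 * z + v 2 * z ^ 2) * this

theorem sw_add (n : ℕ) (α α' : ℂ) (v v' : Fin 3 → ℂ) (y : OnePoint ℂ) :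
    sw n (α + α') (v + v') y = sw n α v y + sw n α' v' y := by
  induction y using OnePoint.rec <;> simp [sw] <;> ring

theorem sw_smul (n : ℕ) (c α : ℂ) (v : Fin 3 → ℂ) (y : OnePoint ℂ) :
    sw n (c * α) (c • v) y = c * sw n α v y := by
  induction y using OnePoint.rec <;> simp [sw] <;> ring

variable {ι J ν : Type} [Fintype ι] [DecidableEq ι] [Fintype J] [Fintype ν] {ch : Ch ι J}
  {x : ch.W ν} {q : ν → OnePoint ℂ} {ξ : ch.A ν} {v : Fin 3 → ℂ} {α : ι → ℂ}

variable (ch q) in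
/-- the lift of the vector field `v`, acting on `O(e_i)` through the scalar `α i` -/
noncomputable def lie : (Fin 3 → ℂ) × (ι → ℂ) →ₗ[ℂ] ch.A ν where
  toFun p := (fun i => vf _ (p.2 i) p.1, fun l => -tr (vf _ (∑ i, ch.a l i * p.2 i) p.1),
    fun n i => -sw (ch.M i) (p.2 i) p.1 (q n))
  map_add' p p' := Prod.ext (funext fun i => vf_add _ _) (Prod.ext (funext fun l => by
      simp only [Prod.snd_add, Prod.fst_add, Pi.add_apply, mul_add, Finset.sum_add_distrib, vf_add,
        map_add, neg_add])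
    (funext₂ fun n i => (congrArg _ (sw_add ..)).trans (neg_add _ _)))
  map_smul' c p := Prod.ext (funext fun i => vf_smul _) (Prod.ext (funext fun l => by
      simp only [Prod.smul_snd, Prod.smul_fst, Pi.smul_apply, smul_eq_mul, mul_left_comm _ c,
        ← Finset.mul_sum, vf_smul, map_smul, RingHom.id_apply, smul_neg])
    (funext₂ fun n i => (congrArg _ (sw_smul ..)).trans (mul_neg _ _).symm))

theorem lie_V (i : ι) : (lie ch q (v, α)).1 i = vf _ (α i) v := rfl

theorem lie_E (l : Option J) :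
    (lie ch q (v, α)).2.1 l = -tr (vf _ (∑ i, ch.a l i * α i) v) := rfl

theorem lie_T (n : ν) (i : ι) : (lie ch q (v, α)).2.2 n i = -sw (ch.M i) (α i) v (q n) := rfl

theorem lie_par (y : OnePoint ℂ) : (fun i => (lie ch q (v, α)).1 i (par ch y i)) =
    (fun i => sw (ch.M i) (α i) v y) • par ch y + ev 3 y v • fun i => nv (ch.M i) y :=
  funext fun _ => vf_ver y

theorem Gz.lie_injective (r : Gz ch ν) : Injective (lie ch q) :=
  (injective_iff_map_eq_zero _).2 fun ⟨v, α⟩ e => by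
    have k : ∀ i, vf (ch.M i) (α i) v = 0 := fun i => congrArg (fun s : ch.A ν => s.1 i) e
    obtain rfl : v = 0 := ev_ext' fun z =>
      (nv_indep r.two_le ((vf_ver _).symm.trans (by rw [k]; rfl))).trans (map_zero _).symm
    refine Prod.ext rfl (funext fun i => ?_)
    simpa [vf_zero] using congrArg (fun s => s 1 ⟨0, Nat.pos_of_ne_zero (r.M_ne i)⟩) (k i)

/-- **the adjoint action of the diagonal torus** -/
theorem dgA_lie {a : ℂ} (ha : a ≠ 0) (t : ι → ℂ) : dgA ch q a t * lie ch q (v, α) =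
    lie ch (sc a ∘ q) (adv a v, α) * dgA ch q a t := by
  refine Prod.ext (funext fun i => diag_vf ha _) (Prod.ext (funext fun l => ?_)
    (funext₂ fun n i => (mul_comm _ _).trans (congrArg (-· * _) (sw_adv ha _).symm)))
  have := congrArg tr (diag_vf (n := ch.h l) (α := ∑ i, ch.a l i * α i) (v := adv a v)
    (inv_ne_zero ha) (chr (ch.a l) t)⁻¹)
  rw [tr_mul, tr_mul, tr_diag, show adv a⁻¹ (adv a v) = v from funext fun e => by
    fin_cases e <;> simp [adv, ha]] at this
  simp only [Prod.snd_mul, Prod.fst_mul, Pi.mul_apply, lie_E, dgA, mul_inv, ← inv_pow]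
  exact (mul_neg _ _).trans ((congrArg _ this.symm).trans (neg_mul _ _).symm)

theorem hasDerivAt_path (s : ι → ℂ) (z w : ℂ) : HasDerivAt
    (fun ε : ℂ => (1 + ε • s) • par ch (z + ε • w : ℂ)) (s • par ch z + w • dpar ch z) 0 := by
  simpa [add_comm] using! (hasDerivAt_line 1 s).smul (shift (hasDerivAt_par (ch := ch) z) w)

theorem val_lie {a : ι → ℕ} (μ : Tens ch.M a) (z : ℂ) :
    val (dsub (lie ch q (v, α)) _ μ) (par ch z) =
      (∑ i, a i * sw (ch.M i) (α i) v z) * val μ (par ch z) +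
        ev 3 z v * deriv (fun z : ℂ => val μ (par ch z)) z := by
  have h := val_dsub (ξ := lie ch q (v, α)) μ ((hasDerivAt_path _ z _).congr_deriv (by
    simpa using! (lie_par z).symm))
  simp only [Base.val_smul] at h
  simpa using h.unique ((hasDerivAt_chr a _).mul (shift
    (an_val analyticAt_const (an_par z)).differentiableAt.hasDerivAt _))

theorem wedge_lie (μ : Tn ch.M ch.slot) (z : ℂ) :
    wedge (dsub (lie ch q (v, α)) _ μ) (par ch z) (dpar ch z) =
      (∑ i, ch.bω i * sw (ch.M i) (α i) v z + ch.k * (2 * sw (ch.M ch.o) (α ch.o) v z +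
        (v 1 + 2 * v 2 * z))) * wedge μ (par ch z) (dpar ch z) +
        ev 3 z v * deriv (fun z : ℂ => wedge μ (par ch z) (dpar ch z)) z := by
  set s : ι → ℂ := fun i => sw (ch.M i) (α i) v z
  let s' : ι → ℂ := fun i => -((ch.M i - 1 : ℕ) * v 2)
  have hs : HasDerivAt (fun (z : ℂ) i => sw (ch.M i) (α i) v z) s' z := hasDerivAt_pi.2 fun i => by
    simpa [sw, s'] using ((hasDerivAt_id z).const_mul ((ch.M i - 1 : ℕ) * v 2)).const_sub (α i)
  have hw : HasDerivAt (fun z : ℂ => ev 3 z v) (v 1 + 2 * v 2 * z) z :=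
    (hasDerivAt_ev v z).congr_deriv (by simp [dver, dotProduct, Fin.sum_univ_three]; ring)
  have hd := (an_dpar (ch := ch) z).differentiableAt.hasDerivAt
  have h1 : HasDerivAt (fun (z : ℂ) i => (lie ch q (v, α)).1 i (par ch z i))
      (fun i => (lie ch q (v, α)).1 i (dpar ch z i)) z := hasDerivAt_pi.2 fun i =>
    ((lie ch q (v, α)).1 i).hasFDerivAt.comp_hasDerivAt z (hasDerivAt_ver _ z)
  rw [funext fun z : ℂ => lie_par (q := q) (v := v) (α := α) z] at h1
  have h2 := h1.unique ((hs.smul (hasDerivAt_par z)).add (hw.smul hd))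
  have h3 := ((hasDerivAt_line 0 s').smul (shift (hasDerivAt_par (ch := ch) z) (ev 3 z v))).add
    ((hasDerivAt_line 1 (v 1 + 2 * v 2 * z)).smul ((hasDerivAt_line 1 s).smul (shift hd (ev 3 z v))))
  have h := wedge_dsub (ξ := lie ch q (v, α)) μ ((hasDerivAt_path s z _).congr_deriv (by
    simpa using! (lie_par z).symm)) (h3.congr_deriv (by simp [h2, s]; abel))
  have h4 := ld_pow (f := fun ε => (1 + ε • s ch.o) * ((1 + ε • (v 1 + 2 * v 2 * z)) *
    (1 + ε • s ch.o))) (a := 2 * s ch.o + (v 1 + 2 * v 2 * z)) (((hasDerivAt_line 1 _).mul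
      ((hasDerivAt_line 1 _).mul (hasDerivAt_line 1 _))).congr_deriv (by simp; ring)) ch.k
  have h5 := ((hasDerivAt_chr ch.bω s).mul h4).mul (shift (an_wedge (analyticAt_const (v := μ))
    (an_par z) (an_dpar z)).differentiableAt.hasDerivAt (ev 3 z v))
  simpa using h.unique (h5.congr_of_eventuallyEq (Eventually.of_forall fun ε =>
    wedge_smul μ _ _ _ _ (a := ε * s' ch.o) (by simp [smul_smul])))

theorem Gz.sum_sw (r : Gz ch ν) (c : ι → ℤ) (z : ℂ) : ∑ i, c i * sw (ch.M i) (α i) v z =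
    ∑ i, c i * α i - (∑ i, c i * ch.m i : ℤ) * v 2 * z := by
  simp only [sw, elim_some, mul_sub, Finset.sum_sub_distrib, ← r.M_sub, Int.cast_sum, Int.cast_mul,
    Int.cast_natCast, Finset.sum_mul, mul_assoc]

theorem Gz.ev_lie (r : Gz ch ν) (l : Option J) (c : ch.E l) (z : ℂ) :
    ev _ z ((lie ch q (v, α)).2.1 l c) = -((∑ i, ch.a l i * sw (ch.M i) (α i) v z) * ev _ z c +
      ev 3 z v * deriv (fun z : ℂ => ev _ z c) z) := by
  have := r.sum_sw (α := α) (v := v) (fun i => ch.a l i) z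
  simp only [Int.cast_natCast, ← r.h_sub] at this
  rw [lie_E, neg_apply, map_neg, ev_tr_vf, this]

theorem Std.lie_Q (r : Gz ch ν) (h : Std x q) (l : Option J) :
    (dact x (lie ch q (v, α))).Q l = 0 := ContinuousLinearMap.ext fun μ => ev_ext' fun z => by
  simp [dact_Q, r.ev_lie, h.Q, val_lie]

theorem Std.lie_p' (h : Std x q) (n : ν) :
    (dact x (lie ch q (v, α))).p n = ev 3 (q n) v • fun i => nv (ch.M i) (q n) := by
  rw [dact_p, h.p, lie_par, ← add_assoc, ← add_smul]
  exact (congrArg (· • _ + _) (neg_add_cancel _)).trans (by simp)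

theorem Std.lie_p (h : Std x q) {n : ν} (hv : ev 3 (q n) v = 0) :
    (dact x (lie ch q (v, α))).p n = 0 := by rw [h.lie_p', hv, zero_smul]

/-- the action on induced fields -/
theorem Gz.lie_ind (r : Gz ch ν) {j : J} {y : ℂ → ℂ}
    (h : ∀ μ (z : ℂ), ev _ z (x.X j μ) = y z * val μ (par ch z)) (μ : Tens ch.M (ch.b j)) {z : ℂ}
    (hy : DifferentiableAt ℂ y z) : ev _ z ((dact x (lie ch q (v, α))).X j μ) =
      -((∑ i, ch.wd j i * α i - (∑ i, ch.wd j i * ch.m i : ℤ) * v 2 * z) * y z +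
        ev 3 z v * deriv y z) * val μ (par ch z) := by
  rw [← r.sum_sw]
  simp only [dact_X, map_add, r.ev_lie, h, val_lie, Ch.wd, Int.cast_sub,
    Int.cast_natCast, _root_.sub_mul, Finset.sum_sub_distrib,
    deriv_fun_mul hy (an_val analyticAt_const (an_par z)).differentiableAt]
  ring

variable (q) in
/-- the divergence of a vector field that vanishes at the marked points, with respect to the
logarithmic form `dz / gq q` -/
noncomputable def lg : (Fin 3 → ℂ) →ₗ[ℂ] ℂ :=
  .proj 1 - ∑ n, (q n).elim 0 fun z => .proj 1 + z • .proj 2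

theorem lg_apply (v : Fin 3 → ℂ) :
    lg q v = v 1 - ∑ n, (q n).elim 0 fun z => v 1 + z * v 2 := by
  simp only [lg, LinearMap.sub_apply, LinearMap.sum_apply, LinearMap.proj_apply, sub_right_inj]
  exact Finset.sum_congr rfl fun n _ => by induction q n using OnePoint.rec <;> simp

theorem shift_gq (hv : ∀ n, ev 3 (q n) v = 0) (z : ℂ) :
    HasDerivAt (fun ε : ℂ => gq q (z + ε • ev 3 z v))
      (gq q z * (v 1 - lg q v + Fintype.card ν * (v 2 * z))) 0 := by
  classical
  have : ∀ n, HasDerivAt (fun ε : ℂ => lin (q n) (z + ε • ev 3 z v)) (lin (q n) z *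
      (((q n).elim 0 fun z => v 1 + z * v 2) + v 2 * z)) 0 := fun n => by
    have := hv n
    revert this
    induction q n using OnePoint.rec with
    | infty =>
      intro e
      simpa [show v 2 = 0 from (ev_infty 2 v).symm.trans e] using hasDerivAt_const (0 : ℂ) (1 : ℂ)
    | coe y =>
      refine fun e => ((hasDerivAt_line z _).sub_const y).congr_deriv ?_
      simp only [ev_three, lin_coe, elim_some] at e ⊢
      linear_combination e
  refine (HasDerivAt.fun_finsetProd fun n _ => this n).congr_deriv ?_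
  simp only [zero_mul, add_zero, smul_eq_mul, ← mul_assoc, gq, lg_apply, sub_sub_cancel,
    Finset.prod_erase_mul _ (fun n => lin (q n) z) (Finset.mem_univ _), ← Finset.mul_sum]
  simp [Finset.sum_add_distrib, mul_assoc]

theorem sum_χ (s : ι → ℂ) : ∑ i, ch.χ i * s i =
    ∑ i, ch.a none i * s i - ∑ i, ch.bω i * s i - 2 * ch.k * s ch.o := by
  simp [Ch.χ, _root_.sub_mul, Finset.sum_sub_distrib]

theorem Std.lie_Ξ (r : Gz ch ν) (h : Std x q) (hv : ∀ n, ev 3 (q n) v = 0) :
    (dact x (lie ch q (v, α))).Ξ = (ch.k * lg q v - ∑ i, ch.χ i * α i) • x.Ξ :=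
  ContinuousLinearMap.ext fun μ => ev_ext' fun z => by
    have e := r.sum_sw (α := α) (v := v) ch.χ z
    have e1 := (shift (an_ev (x.Ξ μ) z).differentiableAt.hasDerivAt (ev 3 z v))
    simp only [h.Ξ] at e1
    have e2 := e1.unique ((ld_pow (by simpa using shift_gq hv z) ch.k).mul (shift (an_wedge
      (analyticAt_const (v := μ)) (an_par z) (an_dpar z)).differentiableAt.hasDerivAt (ev 3 z v)))
    rw [r.deg, sum_χ] at e
    simp only [zero_mul, add_zero, smul_eq_mul] at e2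
    simp only [dact_Ξ, map_add, r.ev_lie, h.Ξ, wedge_lie, _root_.smul_apply, map_smul, smul_eq_mul,
      e2]
    push_cast at e
    linear_combination (-gq q z ^ ch.k * wedge μ (par ch z) (dpar ch z)) * e

theorem Std.tangent (r : Gz ch ν) (h : Std x q) (hQ : ∀ l, (dact x ξ).Q l = 0) (z : ℂ) (i : ι)
    (j : ℕ) (hj : j < ch.M i) : z * ξ.1 i (ver _ z) ⟨j, hj⟩ = z ^ j * (z * ξ.1 i (ver _ z)
      ⟨0, by omega⟩ + j * (ξ.1 ch.o (ver _ z) ⟨1, r.two_le⟩ - z * ξ.1 ch.o (ver _ z)
        ⟨0, r.two_le.trans_lt' two_pos⟩)) := by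
  induction j with
  | zero => simp
  | succ j ih =>
    obtain ⟨l, a, -⟩ := r.cut
    let e : ∀ i, Fin (ch.M i) := fun i => ⟨0, Nat.pos_of_ne_zero (r.M_ne i)⟩
    have m := Pol.mono (M := ch.M) (fun i => .proj (e i))
      (ch.a l - (Pi.single i 1 + Pi.single ch.o 1))
    obtain ⟨μ, hμ⟩ := Pol.mul' (sub_mem
      (Pol.mul (Pol.lin i (.proj ⟨j + 1, hj⟩)) (Pol.lin ch.o (.proj (e _))))
      (Pol.mul (Pol.lin i (.proj ⟨j, by omega⟩)) (Pol.lin ch.o (.proj ⟨1, r.two_le⟩)))) m
      (d := ch.a l) (add_tsub_cancel_of_le fun i' => by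
        have := a i'
        simp only [Pi.add_apply, Pi.single_apply]
        split_ifs <;> omega)
    replace hμ : val μ = _ := hμ
    have h0 : x.Q l μ = 0 := (h.Q_eq_zero r).2 fun z => by simp [hμ, par, e, pow_succ]
    have h1 : val (dsub ξ _ μ) (par ch z) = 0 := by
      have := dact_Q x ξ l μ
      rw [hQ, h0, map_zero, zero_add] at this
      rw [← h.Q, ← this]
      exact map_zero _
    have hc := hasDerivAt_line (par ch z) fun i => ξ.1 i (par ch z i)
    have h2 := val_dsub (ξ := ξ) μ (hc.congr_deriv (by simp))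
    have k := fun i j => hasDerivAt_pi.1 (hasDerivAt_pi.1 hc i) j
    have h3 := (((k i ⟨j + 1, hj⟩).mul (k ch.o (e _))).sub ((k i ⟨j, by omega⟩).mul
      (k _ ⟨1, r.two_le⟩))).mul ((Pol.an m _).differentiableAt.comp _ hc.differentiableAt).hasDerivAt
    rw [hμ] at h2
    have h4 := h2.unique h3
    simp [h1, par, e, pow_succ] at h4
    push_cast
    linear_combination z * ih (by omega) - z * h4

theorem Std.dact_eq_zero (r : Gz ch ν) (h : Std x q) (h1 : ∀ i, ξ.1 i = 0)
    (hQ : ∀ l, (dact x ξ).Q l = 0) (hp : ∀ n, (dact x ξ).p n = 0) : ξ = 0 := by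
  refine Prod.ext (funext h1) (Prod.ext (funext fun l => ContinuousLinearMap.ext
    ((h.Q_surj r l).forall.2 fun μ => ?_)) (funext₂ fun n i => ?_))
  · simpa [hQ, dsub_of_eq ξ _ h1, eq_comm] using dact_Q x ξ l μ
  · simpa [hp, h1, h.p, r.par_ne, eq_comm] using congrFun (dact_p x ξ n) i

open Polynomial in
/-- **the infinitesimal stabiliser** of the curve and the marked points -/
theorem Std.eq_lie (r : Gz ch ν) (h : Std x q) (hQ : ∀ l, (dact x ξ).Q l = 0)
    (hp : ∀ n, (dact x ξ).p n = 0) : ∃ v α, (∀ n, ev 3 (q n) v = 0) ∧ ξ = lie ch q (v, α) := by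
  have t := r.two_le
  choose P d e using fun i => exists_poly (ξ.1 i)
  let A := fun i => P i ⟨0, Nat.pos_of_ne_zero (r.M_ne i)⟩
  let U := P ch.o ⟨1, t⟩ - X * A ch.o
  have k : ∀ i (j : Fin (ch.M i)) (z : ℂ), z * ξ.1 i (ver _ z) j =
      z ^ (j : ℕ) * (z * (A i).eval z + (j : ℕ) * U.eval z) := fun i j z => by
    simpa [A, U, e] using h.tangent r hQ z i j j.2
  have hU : U.natDegree < 3 := by
    have a := natDegree_vf (k ch.o) ⟨ch.M ch.o - 1, by omega⟩
    have b := natDegree_vf (k ch.o) ⟨ch.M ch.o - 2, by omega⟩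
    have c := natDegree_sub_le_of_le (Nat.le_sub_of_add_le a) (Nat.le_sub_of_add_le b)
    rw [add_sub_add_left_eq_sub, ← _root_.sub_mul, ← C_sub, show ((ch.M ch.o - 1 : ℕ) : ℂ) =
      (ch.M ch.o - 2 + 1 : ℕ) from congrArg _ (by omega), Nat.cast_succ, add_sub_cancel_left, C_1,
      one_mul] at c
    simp only at c
    omega
  choose α hα using fun i => eq_vf (r.M_ne i) (k i) (v := toFn 3 U) fun z => by
    rw [ev_coe, ofFn_comp_toFn_eq_id_of_natDegree_lt hU]
  have hv : ∀ n, ev 3 (q n) (toFn 3 U) = 0 := fun n => nv_indep t (by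
    have := congrFun ((dact_p x ξ n).symm.trans (hp n)) ch.o
    rwa [Pi.add_apply, hα, h.p, Pi.smul_apply', par, vf_ver, ← add_assoc, ← add_smul] at this)
  refine ⟨_, α, hv, sub_eq_zero.1 (h.dact_eq_zero r (fun i => sub_eq_zero.2 (hα i)) (fun l => ?_)
    fun n => ?_)⟩ <;> rw [map_sub]
  · exact sub_eq_zero.2 ((hQ l).trans (h.lie_Q r l).symm)
  · exact sub_eq_zero.2 ((hp n).trans (h.lie_p (hv n)).symm)

/-- **the kernel of the curve part of the infinitesimal action** -/
theorem Std.ker_iff (r : Gz ch ν) (h : Std x q) :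
    (∀ l, (dact x ξ).Q l = 0) ∧ (∀ n, (dact x ξ).p n = 0) ∧ (dact x ξ).Ξ = 0 ↔
      ∃ (v : Fin 3 → ℂ) (α : ι → ℂ), (∀ n, ev 3 (q n) v = 0) ∧ ∑ i, ch.χ i * α i = ch.k * lg q v ∧
        ξ = lie ch q (v, α) := by
  refine ⟨fun ⟨a, b, c⟩ => ?_, ?_⟩
  · obtain ⟨v, α, hv, rfl⟩ := h.eq_lie r a b
    rw [h.lie_Ξ r hv, smul_eq_zero_iff_left (h.Ξ_ne r), sub_eq_zero] at c
    exact ⟨v, α, hv, c.symm, rfl⟩
  · rintro ⟨v, α, hv, c, rfl⟩
    exact ⟨h.lie_Q r, fun n => h.lie_p (hv n),
      by rw [h.lie_Ξ r hv, c, sub_self, zero_smul ℂ x.Ξ]⟩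

end Vale.Agent.P269.P1
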