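import Vale.Agent.P269.P1.Mon
import Vale.Agent.P269.Pt.Act
import Vale.Agent.P269.Base.Act

/-!
# The standard points of a chart of genus zero, homogeneity
-/

set_option linter.unusedSectionVars false

namespace Vale.Agent.P269.P1

open Set Function Topology Filter Module Cv Base Ch
open OnePoint hiding some map_smul

variable {ι J ν : Type} [Fintype ι] [DecidableEq ι] [Fintype J] [Fintype ν] {ch : Ch ι J}
  {x x' : ch.W ν} {q q' : ν → OnePoint ℂ} {s : ch.A ν} {ξ : OnePoint ℂ → ℂ}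

/-- the numerical data of a chart for smooth rational curves -/
structure Gz (ch : Ch ι J) (ν : Type) [Fintype ν] : Prop where
  g : ch.g = 0
  M : ∀ i, (ch.M i : ℤ) = ch.m i + 1
  m0 : ∀ i, 0 ≤ ch.m i
  mo : 1 ≤ ch.m ch.o
  h : ∀ l, (ch.h l : ℤ) = ∑ i, ch.a l i * ch.m i + 1
  a : ∀ l, ch.a l ≠ 0
  cut : ∃ l, (∀ i, 2 ≤ ch.a l i) ∧ 3 ≤ ch.a l ch.o
  deg : ∑ i, ch.χ i * ch.m i = ch.k * (Fintype.card ν - 2)
  one : ∑ i, ch.χ i = 1

/-- the numerical conditions that hold as soon as `base` has a point -/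
theorem Gz.of_mem (hx : x ∈ ch.base ν) (hc : (crv x).Nonempty) (hg : ch.g = 0)
    (hM : ∀ i, (ch.M i : ℤ) = ch.m i + 1) (ha : ∀ l, ch.a l ≠ 0)
    (hl : ∃ l, (∀ i, 2 ≤ ch.a l i) ∧ 3 ≤ ch.a l ch.o) (h1 : ∑ i, ch.χ i = 1) : Gz ch ν := by
  classical
  obtain ⟨X, _, _, _, R, N, A, π, u, p, ξ, h⟩ := exists_cr hx
  obtain ⟨y, -⟩ := (h.par.img _).1 hc.choose_spec
  refine ⟨hg, hM, fun i => h.deg_eq i ▸ degOn_univ (L := A i) ▸ (h.par.ge_zero i).nonneg _,
    h.deg_eq _ ▸ degOn_univ (L := A ch.o) ▸ h.par.ge_one _ isClopen_univ ⟨y, trivial⟩,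
    fun l => ?_, ha, hl, ?_, h1⟩
  · have := h.par.finrank h.cur (ha l)
    rw [hg, sub_zero] at this
    rw [← this, ← (LinearEquiv.ofBijective (LinearMap.codRestrict _
      (LinearMap.pi fun y => (u y l).toLinearMap) (h.u_mem l)) ⟨fun v w e => h.u_ext
        (congrFun (congrArg Subtype.val e)), fun s => (h.u_surj (ha l) s.2).imp fun v e =>
          Subtype.ext (funext e)⟩).finrank_eq, finrank_fin_fun]
  · have := deg_of_ne h.xi.1 h.ne
    rw [deg_mul, deg_inv, deg_pow, deg_omega, deg_bz, h.gen_eq, hg,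
      Finset.card_image_of_injective _ h.inj, Finset.card_univ] at this
    simp only [h.deg_eq] at this
    linear_combination this

variable (ch) in
/-- the rational normal curve -/
noncomputable def par (y : OnePoint ℂ) : V ch.M := fun i => ver (ch.M i) y

variable (ch) in
/-- its derivative -/
noncomputable def dpar (z : ℂ) : V ch.M := fun i => dver (ch.M i) z

variable (ch) in
/-- the evaluation maps -/
noncomputable def evs (y : OnePoint ℂ) : ∀ l, ch.E l →L[ℂ] ℂ := fun l => ev (ch.h l) y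

variable (ch) in
/-- the bundles `O(e_i)` -/
noncomputable def Os : ι → LB P1 := fun i => O (ch.m i)

theorem hasDerivAt_par (z : ℂ) : HasDerivAt (fun z : ℂ => par ch z) (dpar ch z) z :=
  hasDerivAt_pi.2 fun _ => hasDerivAt_ver _ z

theorem an_par (z : ℂ) : AnalyticAt ℂ (fun z : ℂ => par ch z) z :=
  analyticAt_pi_iff.2 fun _ => an_ver _ z

theorem an_dpar (z : ℂ) : AnalyticAt ℂ (dpar ch) z := analyticAt_pi_iff.2 fun _ => an_dver _ z

theorem br_par (z t : ℂ) : br (Os ch) (par ch) z t = par ch (t + z : ℂ) :=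
  funext₂ fun i j => by simp [br, P1_loc_coe, Os]

theorem deriv_br_par (z : ℂ) : deriv (br (Os ch) (par ch) z) 0 = dpar ch z := by
  rw [funext (br_par z), deriv_comp_add_const (fun z : ℂ => par ch z), (hasDerivAt_par _).deriv,
    zero_add]

theorem bz_Os (a : ι → ℤ) : bz (Os ch) a = O (∑ i, a i * ch.m i) := bz_O _ _

/-- the function `∏ (z - q n)` -/
noncomputable def gq (q : ν → OnePoint ℂ) (z : ℂ) : ℂ := ∏ n, lin (q n) z

theorem an_gq (z : ℂ) : AnalyticAt ℂ (gq q) z :=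
  Finset.analyticAt_fun_prod _ fun n _ => an_lin (q n) z

theorem ev_ne (q : ν → OnePoint ℂ) : ∀ᶠ z : ℂ in cofinite, ∀ n, (z : OnePoint ℂ) ≠ q n :=
  eventually_all.2 fun n => coe_injective.tendsto_cofinite (eventually_cofinite_ne (q n))

theorem gq_ne {z : ℂ} (h : ∀ n, (z : OnePoint ℂ) ≠ q n) : gq q z ≠ 0 :=
  Finset.prod_ne_zero_iff.2 fun n _ => lin_ne (h n)

open Classical in
variable (ch q ξ) in
/-- `ξ` is the vector field `(∏ (z - q n) ∂_z) ^ k` -/
structure IsXi : Prop where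
  mem : ξ ∈ H0 ∅ ((omega P1 ∅ (Finset.univ.image q) ^ ch.k)⁻¹ * bz (Os ch) ch.χ)
  ne : ∀ y, ξ y ≠ 0
  eq : ∀ z : ℂ, (∀ n, (z : OnePoint ℂ) ≠ q n) → ξ z = gq q z ^ ch.k

variable (x q) in
/-- The curve part of `x` is the rational normal curve with monomial frames and marked points
`q`; the fields are arbitrary. -/
structure Std : Prop where
  inj : Injective q
  Q : ∀ l μ (z : ℂ), ev _ z (x.Q l μ) = val μ (par ch z)
  p : ∀ n, x.p n = par ch (q n)
  Ξ : ∀ μ (z : ℂ), ev _ z (x.Ξ μ) = gq q z ^ ch.k * wedge μ (par ch z) (dpar ch z)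

open Classical in
theorem wsec_coe (μ : Tn ch.M ch.slot) {z : ℂ} (h : ∀ n, (z : OnePoint ℂ) ≠ q n) :
    wsec (Os ch) (par ch) ∅ (Finset.univ.image q) μ z = wedge μ (par ch z) (dpar ch z) := by
  rw [wsec, if_pos ⟨by simp [Sm], by simpa using fun n => (h n).symm⟩, one_pow, one_mul,
    deriv_br_par]

theorem Std.congr (h : Std x q) (h1 : x'.Q = x.Q) (h2 : x'.p = x.p) (h3 : x'.Ξ = x.Ξ) : Std x' q :=
  ⟨h.inj, h1 ▸ h.Q, h2 ▸ h.p, h3 ▸ h.Ξ⟩

theorem Std.unique (h : Std x q) (h' : Std x' q) : x'.Q = x.Q ∧ x'.p = x.p ∧ x'.Ξ = x.Ξ :=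
  ⟨funext fun l => ContinuousLinearMap.ext fun μ => ev_ext' fun z => by rw [h.Q, h'.Q],
    funext fun n => by rw [h.p, h'.p],
    ContinuousLinearMap.ext fun μ => ev_ext' fun z => by rw [h.Ξ, h'.Ξ]⟩

namespace Gz

variable (r : Gz ch ν)
include r

theorem M_ne (i : ι) : ch.M i ≠ 0 := by have := r.M i; have := r.m0 i; omega

theorem two_le : 2 ≤ ch.M ch.o := by have := r.M ch.o; have := r.mo; omega

theorem M_sub (i : ι) : ((ch.M i - 1 : ℕ) : ℤ) = ch.m i := by have := r.M i; have := r.m0 i; omega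

theorem dg_nonneg (a : ι → ℕ) : 0 ≤ ∑ i, a i * ch.m i :=
  Finset.sum_nonneg fun i _ => mul_nonneg (by simp) (r.m0 i)

theorem h_sub (l : Option J) : ((ch.h l - 1 : ℕ) : ℤ) = ∑ i, ch.a l i * ch.m i := by
  have := r.h l; have := r.dg_nonneg (ch.a l); omega

theorem par_ne (y : OnePoint ℂ) (i : ι) : par ch y i ≠ 0 := ver_ne (r.M_ne i) y

theorem full : Full ∅ (Os ch) (par ch) :=
  ⟨fun i j => H0_empty.ge (ver_mem (r.M i) j), fun i _ hs =>
    let ⟨c, e⟩ := (mem_O (r.M i) (r.m0 i)).1 hs.1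
    ⟨∑ j, c j • ContinuousLinearMap.proj j, fun y => by simp [e, ev_apply, par, mul_comm]⟩⟩

theorem isPar : Par ch.o (cone (par ch)) ∅ (Os ch) (par ch) :=
  r.full.par nd_empty (ge_iff.2 (by
    have := r.mo
    rw [deg_div, Os, deg_O, deg_omega, gen_P1]; simp; omega)) fun i y =>
      let ⟨j, e⟩ := ne_iff.1 (r.par_ne y i)
      ⟨_, r.full.sec i j, e⟩

theorem cur : IsCurve ch.o ch.g ch.m (cone (par ch)) := by
  have := r.isPar.isCurve (r.full.normal fun a _ i => by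
    simp only [H0_empty, bz_Os]
    exact O_le_mul (r.dg_nonneg a) (r.m0 i)) fun a _ => by
      rw [bz_Os]; exact h1_O (neg_one_lt_zero.le.trans (r.dg_nonneg a))
  simpa only [gen_P1, Os, deg_O, r.g] using this

theorem eq_of_orb {y y' : OnePoint ℂ} (h : Orb (par ch y) (par ch y')) : y = y' := by
  obtain ⟨t, -, e⟩ := h
  simpa using r.isPar.inj y y' t e

theorem evs_mem (l : Option J) (v : ch.E l) :
    (fun y => ev _ y v) ∈ (bz (Os ch) fun i => ch.a l i).Γ :=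
  bz_Os (ch := ch) _ ▸ ev_mem (r.h l) (r.dg_nonneg _) v

theorem exists_ev {l : Option J} {s : OnePoint ℂ → ℂ}
    (hs : s ∈ (bz (Os ch) fun i => ch.a l i).Γ) : ∃ v : ch.E l, ∀ y, ev _ y v = s y :=
  ((mem_O (r.h l) (r.dg_nonneg _)).1 (bz_Os (ch := ch) _ ▸ hs)).imp fun _ e y => (e y).symm

theorem exists_xi (hq : Injective q) : ∃ ξ, IsXi ch q ξ := by
  obtain ⟨s, a, b, c⟩ := exists_log hq
  refine ⟨s ^ ch.k, H0_empty.ge ?_, fun y => pow_ne_zero _ (b y), fun z hz => by simp [c z hz, gq]⟩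
  rw [bz_Os, r.deg, mul_comm (ch.k : ℤ), O_mul, zpow_natCast, ← inv_pow, ← mul_pow]
  exact LB.pow_mem a _

open Classical in
theorem xi_mem (h : IsXi ch q ξ) (μ : Tn ch.M ch.slot) :
    ξ * wsec (Os ch) (par ch) ∅ (Finset.univ.image q) μ ∈ (bz (Os ch) fun i => ch.a none i).Γ :=
  (Xi.bz_eq (ch := ch) (A := Os ch) _ ▸ H0.mul_mem h.mem
    (wsec_mem nd_empty r.full.sec (by simp [Sm]) μ)).1

theorem exists_Xi (hq : Injective q) (μ : Tn ch.M ch.slot) : ∃ v : ch.E none, ∀ z : ℂ,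
    ev _ z v = gq q z ^ ch.k * wedge μ (par ch z) (dpar ch z) := by
  obtain ⟨ξ, h⟩ := r.exists_xi hq
  obtain ⟨v, e⟩ := r.exists_ev (r.xi_mem h μ)
  refine ⟨v, congrFun (eq_of_cofinite
    (continuous_iff_continuousAt.2 fun z => (an_ev v z).continuousAt)
    (continuous_iff_continuousAt.2 fun z => (((an_gq z).pow _).mul
      (an_wedge analyticAt_const (an_par z) (an_dpar z))).continuousAt)
    ((ev_ne q).mono fun z hz => ?_))⟩
  rw [e, Pi.mul_apply, h.eq z hz, wsec_coe μ hz]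

/-- **standard points exist** -/
theorem exists_std (hq : Injective q) (F : ∀ j, Tens ch.M (ch.b j) →L[ℂ] ch.E (some j)) :
    ∃ x : ch.W ν, Std x q ∧ x.X = F := by
  choose Q hQ using fun l => exists_lift (u := fun y => ev (ch.h l) y)
    (v := fun y => evL (ch.a l) (par ch y)) fun μ => r.exists_ev (val_mem r.full.sec μ).1
  obtain ⟨Ξ, hΞ⟩ := exists_lift (u := fun z : ℂ => ev (ch.h none) z)
    (v := fun z => gq q z ^ ch.k • wedgeL (par ch z) (dpar ch z)) fun μ => by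
      simpa using r.exists_Xi hq μ
  exact ⟨W.mk' Q (fun n => par ch (q n)) Ξ F, ⟨hq, fun l μ z => hQ l z μ, fun _ => rfl,
    fun μ z => by simpa using hΞ z μ⟩, rfl⟩

end Gz

namespace Std

variable (r : Gz ch ν) (h : Std x q)
include r h

theorem Q' (l : Option J) (μ : Tens ch.M (ch.a l)) (y : OnePoint ℂ) :
    ev _ y (x.Q l μ) = val μ (par ch y) :=
  congrFun (eq_of_coe (r.evs_mem l _) (val_mem r.full.sec μ).1 (h.Q l μ)) y

theorem Q_eq_zero {l : Option J} {μ : Tens ch.M (ch.a l)} :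
    x.Q l μ = 0 ↔ ∀ z : ℂ, val μ (par ch z) = 0 :=
  ⟨fun e z => by rw [← h.Q, e, map_zero], fun e => ev_ext' fun z => by rw [h.Q, e, map_zero]⟩

theorem Q_surj (l : Option J) : Surjective (x.Q l) := fun v =>
  let ⟨μ, e⟩ := mem_PP.1 (r.isPar.le_PP r.cur (r.a l) (H0_empty.ge (r.evs_mem l v)))
  ⟨μ, ev_ext' fun z => (h.Q l μ z).trans (e z).symm⟩

theorem crv_eq : crv x = cone (par ch) :=
  let ⟨_, a, b⟩ := r.cut
  Cv.crv_eq r.isPar r.cur (fun l μ => Iff.trans ⟨fun e y => by rw [← h.Q' r, e, map_zero],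
    fun e => (h.Q_eq_zero r).2 fun z => e z⟩ r.isPar.val_eq_zero.symm) a b

theorem isPar : Par ch.o (crv x) ∅ (Os ch) (par ch) := (h.crv_eq r).symm ▸ r.isPar

theorem cr (hξ : IsXi ch q ξ) : Cr ∅ (Os ch) x (par ch) (evs ch) q ξ :=
  .of (h.isPar r) (h.Q_surj r) (fun _ _ e => (h.Q_eq_zero r).2 fun z => e z)
    ((h.crv_eq r).symm ▸ r.cur) (fun y => ⟨r.par_ne y, fun l μ => h.Q' r l μ y⟩)
    (by simp [Sm]) h.inj (fun n => h.p n ▸ .refl _) hξ.mem hξ.ne fun y μ =>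
      congrFun (eq_of_ev (r.evs_mem none _) (r.xi_mem hξ μ) ((ev_ne q).mono fun z hz => by
        rw [h.Ξ, Pi.mul_apply, hξ.eq z hz, wsec_coe μ hz])) y

theorem exists_cr : ∃ ξ, IsXi ch q ξ ∧ Cr ∅ (Os ch) x (par ch) (evs ch) q ξ :=
  (r.exists_xi h.inj).imp fun _ a => ⟨a, h.cr r a⟩

theorem mem_base : x ∈ ch.base ν := (h.exists_cr r).choose_spec.2.mem

theorem mem_gr {z : ch.Pt} : z ∈ gr x ↔ ∃ y, ∃ t : ι → ℂ, (∀ i, t i ≠ 0) ∧
    z = (t • par ch y, fun l => chr (ch.a l) t • evs ch y l) :=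
  (h.exists_cr r).choose_spec.2.mem_gr

theorem par_mem (y : OnePoint ℂ) : (par ch y, evs ch y) ∈ gr x := (h.exists_cr r).choose_spec.2.gr y

theorem isConnected : IsConnected (crv x) :=
  (h.isPar r).isConnected_iff.2 ⟨inferInstance, fun _ a _ => isClopen_iff.1 a⟩

theorem not_node (c : V ch.M) (hc : c ∈ crv x) : ¬IsNode ch.o (crv x) c := by
  obtain ⟨y, t, a, rfl⟩ := ((h.isPar r).img c).1 hc
  simp [(h.isPar r).isNode_iff a, Sm]

theorem Ξ_ne : x.Ξ ≠ 0 := fun e => by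
  obtain ⟨z, hz⟩ := (ev_ne q).exists
  obtain ⟨μ, a⟩ := exists_wedge_ne (r.par_ne z) (deriv_br_par (ch := ch) z ▸ r.isPar.imm z)
  exact mul_ne_zero (pow_ne_zero _ (gq_ne hz)) a ((h.Ξ μ z).symm.trans (by simp [e]))

end Std

/-- a presentation by the projective line can be moved to the standard one -/
theorem Gz.hom_of_cr (r : Gz ch ν) {A : ι → LB P1} {π : OnePoint ℂ → V ch.M}
    {u : OnePoint ℂ → ∀ l, ch.E l →L[ℂ] ℂ} (h : Cr ∅ A x π u q ξ) : ∃ s : ch.A ν, IsUnit s ∧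
      Std (act s x) q ∧ ∀ y, Orb (par ch y) fun i => s.1 i (π y i) := by
  choose c a b using fun i => exists_triv (A i)
  have h1 := h.of_iso (B := Os ch) (c := fun y i => c i y)
    (fun i => H0_empty.ge (by simpa only [h.deg_eq] using! a i)) fun y i => b i y
  obtain ⟨η, hη⟩ := r.exists_xi h.inj
  obtain ⟨e, he⟩ := exists_const isClopen_univ isConnected_univ (fun y _ => h1.xi.1 y)
    (fun y _ => hη.mem.1 y) fun y _ => h1.ne y
  have e0 : e ≠ 0 := fun d => hη.ne ∞ (by rw [he _ trivial, d, zero_mul])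
  have h2 := h1.of_iso (B := Os ch) (c := fun _ _ => e) (fun i => by
    rw [div_self']; exact H0_empty.ge fun y => LB.sec_one.2 (RS.hol_const e)) fun _ _ => e0
  rw [show (fun y => (ξ y * ∏ i, c i y ^ ch.χ i) * ∏ i, e ^ ch.χ i) = η from funext fun y => by
    rw [he y trivial, mul_comm, ← Units.val_mk0 e0]
    simp only [← Units.val_zpow_eq_zpow_val, ← Units.coe_prod]
    rw [show ∏ i, Units.mk0 e e0 ^ ch.χ i = Units.mk0 e e0 ^ ∑ i, ch.χ i from (map_prod
      (zpowersHom _ (Units.mk0 e e0)) (fun i => Multiplicative.ofAdd (ch.χ i)) _).symm, r.one,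
      zpow_one]] at h2
  obtain ⟨x₀, h0, -⟩ := r.exists_std h.inj 0
  obtain ⟨s, s1, s2, -, s3, s4, s5⟩ := h2.exists_unit (h0.cr r hη) r.a fun i => by
    rw [r.M, r.g, sub_zero]
  refine ⟨s, s1, h0.congr s3.symm s4.symm s5.symm, fun y => .symm ⟨fun i => e * c i y,
    fun i => mul_ne_zero e0 (b i y), funext fun i => ?_⟩⟩
  rw [← s2, Dict.smul_ap, Dict.smul_ap, Dict.smul_ap, smul_smul, map_smul]

/-- **homogeneity**: a smooth connected curve of genus zero with at most three chosen points -/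
theorem Gz.hom (r : Gz ch ν) (hx : x ∈ ch.base ν) (hc : IsConnected (crv x))
    (hn : ∀ c ∈ crv x, ¬IsNode ch.o (crv x) c) {α : Type} [Fintype α] (hα : Fintype.card α ≤ 3)
    {c : α → V ch.M} (h1 : ∀ a, c a ∈ crv x) (h2 : ∀ a b, Orb (c a) (c b) → a = b)
    {w : α → OnePoint ℂ} (hw : Injective w) : ∃ (s : ch.A ν) (q : ν → OnePoint ℂ), IsUnit s ∧
      Std (act s x) q ∧ ∀ a, Orb (par ch (w a)) fun i => s.1 i (c a i) := by
  classical
  obtain ⟨X, _, _, _, R, N, A, π, u, p, ξ, h⟩ := exists_cr hx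
  obtain rfl : N = ∅ := Finset.eq_empty_of_forall_notMem fun n a => hn _ (h.par.mem n.1)
    (one_smul (ι → ℂ) (π n.1) ▸ (h.par.isNode_iff fun _ => one_ne_zero).2 (Xi.not_sm_fst a))
  have : ConnectedSpace X := connectedSpace_iff_clopen.2 ((h.par.isConnected_iff.1 hc).imp_right
    fun a U b => a U b (by simp))
  choose y t a b using fun a => (h.par.img _).1 (h1 a)
  obtain ⟨f, f1, f2⟩ := exists_iso' (R := R) (by have := h.gen_eq; simp [gen, r.g] at this; omega)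
    hα (p := y) (fun i j e => h2 i j (.trans (.symm ⟨_, a i, b i⟩) ⟨_, a j, e ▸ b j⟩)) hw
  obtain ⟨ω, o1, o2, o3, -⟩ := f1.exists_omega f.injective nd_empty nd_empty
    (P := Finset.univ.image fun n => f.symm (p n)) (P' := Finset.univ.image p) (by simp [Sm])
    (by simp [Sm]) (by simp [Jn]) fun y => by simp [Sm, f.symm_apply_eq]
  obtain ⟨s, s1, s2, s3⟩ := r.hom_of_cr (h.comp f1 nd_empty (by simp [Jn])
    (p := fun n => f.symm (p n)) (fun n => f.apply_symm_apply _) (c := 1)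
    (A := fun i => f1.pb (A i)) (fun i => div_self' (f1.pb (A i)) ▸ H0.one_mem)
    (fun _ _ => one_ne_zero) o1 o2 o3)
  refine ⟨s, _, s1, s2, fun j => (s3 (w j)).trans ⟨t j, a j, funext fun i => ?_⟩⟩
  simp [b j, f2]

theorem orb_p (hs : IsUnit s) (n : ν) : Orb (fun i => s.1 i (x.p n i)) ((act s x).p n) :=
  ⟨_, (isUnit_iff.1 hs).2.2 n, act_p s x n⟩

/-- at most three marked points can be moved to given positions -/
theorem Gz.hom_mark (r : Gz ch ν) (hx : x ∈ ch.base ν) (hc : IsConnected (crv x))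
    (hn : ∀ c ∈ crv x, ¬IsNode ch.o (crv x) c) (hν : Fintype.card ν ≤ 3) (hq : Injective q) :
    ∃ s : ch.A ν, IsUnit s ∧ Std (act s x) q := by
  obtain ⟨s, q', a, b, c⟩ := r.hom hx hc hn hν (fun n => (hx.2.2.2.1 n).1)
    (fun n n' ⟨t, _, e⟩ => (hx.2.2.2.2.1 n' n t e).symm) hq
  obtain rfl : q = q' := funext fun n => r.eq_of_orb (b.p n ▸ (c n).trans (orb_p a n))
  exact ⟨s, a, b⟩

/-- **homogeneity of the curve part** -/
theorem Gz.exists_act (r : Gz ch ν) (hν : Fintype.card ν ≤ 3) (hx : x ∈ ch.base ν)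
    (hc : IsConnected (crv x)) (hn : ∀ c ∈ crv x, ¬IsNode ch.o (crv x) c) (hx' : x' ∈ ch.base ν)
    (hc' : IsConnected (crv x')) (hn' : ∀ c ∈ crv x', ¬IsNode ch.o (crv x') c) :
    ∃ s : ch.A ν, IsUnit s ∧ x'.Q = (act s x).Q ∧ x'.p = (act s x).p ∧ x'.Ξ = (act s x).Ξ := by
  obtain ⟨e⟩ := Embedding.nonempty_of_card_le (β := Fin 3) (by simpa using hν)
  have hq : Injective fun n => (((e n : ℕ) : ℂ) : OnePoint ℂ) :=
    coe_injective.comp (Nat.cast_injective.comp (Fin.val_injective.comp e.injective))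
  obtain ⟨s, a, b⟩ := r.hom_mark hx hc hn hν hq
  obtain ⟨_, ⟨s', rfl⟩, b'⟩ := r.hom_mark hx' hc' hn' hν hq
  obtain ⟨c, d, e⟩ := b.unique b'
  refine ⟨↑s'⁻¹ * s, s'⁻¹.isUnit.mul a, ?_⟩
  rw [act_mul, ← act_inv_act s' x']
  exact ⟨funext fun l => ContinuousLinearMap.ext fun μ => by rw [act_Q, c]; rfl,
    funext fun n => by rw [act_p, d]; rfl, ContinuousLinearMap.ext fun μ => by rw [act_Ξ, e]; rfl⟩

end Vale.Agent.P269.P1
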