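import Vale.Agent.P269.P1.Lie

/-!
# The tangent space of `base` at a smooth rational curve with at most three marked points
-/

set_option linter.unusedSectionVars false

namespace Vale.Agent.P269.P1

open Set Function Topology Filter Module Cv Base Ch Holo
open OnePoint hiding some map_smul

section gen

variable {G T L A F : Type*} [Group G] [TopologicalSpace G] [TopologicalSpace T] [MulAction G T]
  [ContinuousSMul G T] [NormedAddCommGroup L] [NormedSpace ℂ L] [FiniteDimensional ℂ L]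
  [NormedAddCommGroup A] [NormedSpace ℂ A] [NormedAddCommGroup F] [NormedSpace ℂ F]
  [FiniteDimensional ℂ F] {κ : L → G} {ι : T → A} {φ : F → T} {y : F} {i : F →L[ℂ] A}
  {D : L →L[ℂ] A} {N : ℕ}

variable (κ ι φ y i D N) in
/-- the orbits of a family `φ` of the right dimension -/
structure Fill : Prop where
  exp : IsExp κ
  hol : HolAct κ ι (φ y)
  cont : Continuous φ
  an : AnalyticAt ℂ (fun z => ι (φ z)) y
  der : fderiv ℂ (fun z => ι (φ z)) y = i
  inj : Injective i
  inf : inf κ ι (φ y) = D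
  mfd : IsMfd ι N (φ y)
  dim : N + finrank ℂ (i.range.comap (D : L →ₗ[ℂ] A)) = finrank ℂ L + finrank ℂ F

namespace Fill

variable (h : Fill κ ι φ y i D N)
include h

theorem isParam {K : Submodule ℂ L} (hK : IsCompl (i.range.comap (D : L →ₗ[ℂ] A)) K) :
    IsParam ι (fun p : K × F => κ p.1 • φ p.2) (0, y) ∧
      fderiv ℂ (fun p : K × F => ι (κ p.1 • φ p.2)) (0, y) = (D.comp K.subtypeL).coprod i := by
  obtain ⟨ψ, hψ, h0⟩ := h.mfd
  let j := K.subtypeL.prodMap (ContinuousLinearMap.id ℂ F)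
  have an := h.hol.an_fam h.cont.continuousAt h.an
  have d := an.differentiableAt.hasFDerivAt
  rw [h.hol.fderiv_fam h.exp h.cont.continuousAt h.an, h.inf, h.der] at d
  have d' : fderiv ℂ (fun p : K × F => ι (κ p.1 • φ p.2)) (0, y) = (D.comp K.subtypeL).coprod i :=
    (HasFDerivAt.comp (g := fun p : L × F => ι (κ p.1 • φ p.2)) ((0, y) : K × F) d
      j.hasFDerivAt).fderiv.trans (ContinuousLinearMap.ext fun _ => rfl)
  refine ⟨hψ.of_injective (by simp [h0, h.exp.zero])
    (((h.exp.cont.comp (continuous_subtype_val.comp continuous_fst)).smul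
      (h.cont.comp continuous_snd)).continuousAt) (an.comp_of_eq (j.analyticAt _) rfl) ?_ ?_, d'⟩
  · rw [d']
    refine (injective_iff_map_eq_zero _).2 fun ⟨l, f⟩ e => ?_
    replace e : D l + i f = 0 := e
    obtain rfl : l = 0 := Subtype.ext (hK.disjoint.le_bot ⟨⟨-f, (map_neg _ _).trans
      (neg_eq_of_add_eq_zero_left e)⟩, l.2⟩)
    rw [ZeroMemClass.coe_zero, map_zero, zero_add] at e
    rw [h.inj (e.trans (map_zero _).symm)]
    rfl
  · have := Submodule.finrank_add_eq_of_isCompl hK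
    have := h.dim
    rw [finrank_prod, finrank_fin_fun]
    omega

theorem mem_tan {v : A} : v ∈ tan ι (φ y) ↔ ∃ l f, D l + i f = v := by
  obtain ⟨K, hK⟩ := (i.range.comap (D : L →ₗ[ℂ] A)).exists_isCompl
  obtain ⟨a, d⟩ := h.isParam hK
  have t := a.tan_eq
  simp only [d, ZeroMemClass.coe_zero, h.exp.zero, one_smul] at t
  refine ⟨fun a => let ⟨p, a⟩ := t.le a; ⟨p.1, p.2, a⟩, ?_⟩
  rintro ⟨l, f, rfl⟩
  exact add_mem (h.inf ▸ h.hol.inf_mem_tan h.exp l)
    (h.der ▸ fderiv_mem_tan h.cont.continuousAt h.an f)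

theorem nhds_le : 𝓝 (φ y) ≤ map (fun p : G × F => p.1 • φ p.2) (𝓝 (1, y)) := by
  obtain ⟨K, hK⟩ := (i.range.comap (D : L →ₗ[ℂ] A)).exists_isCompl
  have a := (h.isParam hK).1.lh.map_nhds
  have c := ((h.exp.cont.comp (continuous_subtype_val.comp continuous_fst)).prodMk
    continuous_snd).tendsto ((0, y) : K × F)
  simp only [ZeroMemClass.coe_zero, h.exp.zero, one_smul, comp_apply] at a c
  exact a.ge.trans (map_mono (m := fun p : G × F => p.1 • φ p.2) c)

end Fill

theorem hasFDerivAt_aff (a : A) (i : F →L[ℂ] A) (y : F) : HasFDerivAt (fun z => a + i z) i y :=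
  i.hasFDerivAt.const_add a

end gen

variable {ι J ν : Type} [Fintype ι] [DecidableEq ι] [Fintype J] [Fintype ν] {ch : Ch ι J}
  {x y : ch.W ν} {q : ν → OnePoint ℂ} {s ξ ξ' : ch.A ν}

variable (ch) in
/-- the space of thickened fields -/
def Fl : Type := ∀ j, Tens ch.M (ch.b j) →L[ℂ] ch.E (some j)

noncomputable instance : NormedAddCommGroup (Fl ch) :=
  inferInstanceAs (NormedAddCommGroup (∀ j, Tens ch.M (ch.b j) →L[ℂ] ch.E (some j)))

noncomputable instance : NormedSpace ℂ (Fl ch) :=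
  inferInstanceAs (NormedSpace ℂ (∀ j, Tens ch.M (ch.b j) →L[ℂ] ch.E (some j)))

instance : FiniteDimensional ℂ (Fl ch) :=
  inferInstanceAs (FiniteDimensional ℂ (∀ j, Tens ch.M (ch.b j) →L[ℂ] ch.E (some j)))

theorem finrank_Fl :
    finrank ℂ (Fl ch) = finrank ℂ (∀ j, Tens ch.M (ch.b j) →L[ℂ] ch.E (some j)) := rfl

theorem finrank_Fl' : finrank ℂ (Fl ch) = ∑ j, finrank ℂ (Tens ch.M (ch.b j)) * ch.h (some j) := by
  simpa using finrank_Fl.trans (finrank_pi_clm (fun j => Tens ch.M (ch.b j)) fun j => ch.E (some j))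

/-- the field directions -/
noncomputable def fl (ch : Ch ι J) (ν : Type) [Fintype ν] : Fl ch →L[ℂ] ch.W ν :=
  (ContinuousLinearMap.inr ℂ _ _).comp
    ((ContinuousLinearMap.inr ℂ _ _).comp (ContinuousLinearMap.inr ℂ _ _))

theorem fl_eq (F : Fl ch) : fl ch ν F = W.mk' 0 0 0 F := rfl

theorem fl_X (F : Fl ch) : (fl ch ν F).X = F := rfl

theorem fl_injective : Injective (fl ch ν) := fun _ _ e => congrArg W.X e

theorem mem_range_fl : y ∈ (fl ch ν).range ↔ (∀ l, y.Q l = 0) ∧ (∀ n, y.p n = 0) ∧ y.Ξ = 0 :=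
  ⟨by rintro ⟨F, rfl⟩; exact ⟨fun _ => rfl, fun _ => rfl, rfl⟩, fun ⟨a, b, c⟩ =>
    ⟨y.X, W.ext (fun l => (a l).symm) (fun n => (b n).symm) c.symm fun _ => rfl⟩⟩

/-- the point with the curve part of `x` and the fields `F` -/
def setX (x : ch.W ν) (F : Fl ch) : ch.W ν := W.mk' x.Q x.p x.Ξ F

theorem setX_self : setX x x.X = x := rfl

theorem setX_mem {F : Fl ch} : setX x F ∈ ch.base ν ↔ x ∈ ch.base ν := Iff.rfl

theorem setX_eq (F : Fl ch) : setX x F = setX x 0 + fl ch ν F :=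
  W.ext (fun _ => (add_zero _).symm) (fun _ => (add_zero _).symm) (add_zero _).symm
    fun _ => (zero_add _).symm

theorem hasFDerivAt_setX (F : Fl ch) : HasFDerivAt (setX x) (fl ch ν) F := by
  rw [funext (setX_eq (x := x))]
  exact hasFDerivAt_aff _ _ _

theorem an_setX (F : Fl ch) : AnalyticAt ℂ (setX x) F :=
  W.an_iff.2 ⟨fun _ => analyticAt_const, fun _ => analyticAt_const, analyticAt_const,
    analyticAt_pi_iff.1 analyticAt_id⟩

theorem Std.setX (h : Std x q) (F : Fl ch) : Std (setX x F) q := h.congr rfl rfl rfl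

/-- the action of `s` as a linear map -/
noncomputable def actL (s : ch.A ν) : ch.W ν →L[ℂ] ch.W ν := LinearMap.toContinuousLinearMap
  { toFun := act s
    map_add' := fun _ _ => W.ext (fun _ => ContinuousLinearMap.ext fun _ => map_add (s.2.1 _) _ _)
      (fun n => funext fun i => (congrArg (s.2.2 n i • ·) (map_add (s.1 i) _ _)).trans
        (smul_add _ _ _)) (ContinuousLinearMap.ext fun _ => map_add (s.2.1 _) _ _)
      fun _ => ContinuousLinearMap.ext fun _ => map_add (s.2.1 _) _ _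
    map_smul' := fun c _ => W.ext (fun _ => ContinuousLinearMap.ext fun _ => map_smul (s.2.1 _) c _)
      (fun n => funext fun i => (congrArg (s.2.2 n i • ·) (map_smul (s.1 i) c _)).trans
        (smul_comm _ _ _)) (ContinuousLinearMap.ext fun _ => map_smul (s.2.1 _) c _)
      fun _ => ContinuousLinearMap.ext fun _ => map_smul (s.2.1 _) c _ }

theorem actL_apply (s : ch.A ν) (x : ch.W ν) : actL s x = act s x := rfl

/-- equivariance of the infinitesimal action -/
theorem dact_act (h : ξ' * s = s * ξ) : dact (act s x) ξ' = act s (dact x ξ) := by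
  refine (hasDerivAt_act _ ξ').unique (((actL s).hasFDerivAt.comp_hasDerivAt _
    (hasDerivAt_act x ξ)).congr_of_eventuallyEq (Eventually.of_forall fun ε => ?_))
  change act _ (act s x) = act s (act _ x)
  rw [← act_mul, ← act_mul, ln, ln, add_mul, mul_add, one_mul, mul_one, smul_mul_assoc, h,
    mul_smul_comm]

theorem act_mem_fl (s : ch.A ν) (h : y ∈ (fl ch ν).range) : act s y ∈ (fl ch ν).range :=
  let ⟨a, b, c⟩ := mem_range_fl.1 h
  mem_range_fl.2 ⟨fun l => ContinuousLinearMap.ext fun μ => by simp [act_Q, a],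
    fun n => funext fun i => by simp [act_p, b], ContinuousLinearMap.ext fun μ => by simp [act_Ξ, c]⟩

/-- the Lie algebra of the stabiliser of the curve part -/
noncomputable def stb (x : ch.W ν) : Submodule ℂ (ch.A ν) :=
  (fl ch ν).range.comap (dact x : ch.A ν →ₗ[ℂ] ch.W ν)

theorem mem_stb : ξ ∈ stb x ↔
    (∀ l, (dact x ξ).Q l = 0) ∧ (∀ n, (dact x ξ).p n = 0) ∧ (dact x ξ).Ξ = 0 := mem_range_fl

theorem finrank_stb_act (u : (ch.A ν)ˣ) : finrank ℂ (stb (act u x)) = finrank ℂ (stb x) := by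
  have k : ∀ (u : (ch.A ν)ˣ) (x : ch.W ν), finrank ℂ (stb x) ≤ finrank ℂ (stb (act u x)) :=
    fun u x => LinearMap.finrank_le_finrank_of_injective
      (f := (LinearMap.mulLeftRight ℂ ((u : ch.A ν), (↑u⁻¹ : ch.A ν))).restrict fun ξ h => by
        change dact (act u x) (u * ξ * ↑u⁻¹) ∈ (fl ch ν).range
        rw [dact_act (u.inv_mul_cancel_right _)]
        exact act_mem_fl _ h)
      fun a b e => Subtype.ext ((Units.mul_right_inj u).1 ((Units.mul_left_inj u⁻¹).1
        (congrArg Subtype.val e)))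
  exact le_antisymm ((k u⁻¹ _).trans (by rw [act_inv_act])) (k u x)

variable (ch q) in
/-- the constraints on the vector field and the scalars -/
noncomputable def cst : (Fin 3 → ℂ) × (ι → ℂ) →ₗ[ℂ] (ν → ℂ) × ℂ :=
  ((LinearMap.pi fun n => (ev 3 (q n) : (Fin 3 → ℂ) →ₗ[ℂ] ℂ)).prod ((ch.k : ℂ) • lg q)).coprod
    ((LinearMap.inr ℂ _ _).comp (-∑ i, (ch.χ i : ℂ) • LinearMap.proj i))

theorem cst_apply (v : Fin 3 → ℂ) (α : ι → ℂ) :
    cst ch q (v, α) = (fun n => ev 3 (q n) v, ch.k * lg q v - ∑ i, ch.χ i * α i) := by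
  ext <;> simp [cst, sub_eq_add_neg]

theorem Gz.cst_surj (r : Gz ch ν) (hν : Fintype.card ν ≤ 3) (hq : Injective q) :
    Surjective (cst ch q) := fun ⟨w, c⟩ =>
  let ⟨v, hv⟩ := ev_surj hν hq w
  ⟨(v, fun _ => ch.k * lg q v - c), by
    rw [cst_apply, ← Finset.sum_mul, ← Int.cast_sum, r.one, funext hv]
    simp⟩

theorem Std.stb_eq (r : Gz ch ν) (h : Std x q) : stb x = (cst ch q).ker.map (lie ch q) :=
  Submodule.ext fun _ => mem_stb.trans ((h.ker_iff r).trans ⟨fun ⟨v, α, a, b, c⟩ =>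
    ⟨(v, α), (cst_apply v α).trans (Prod.ext (funext a) (sub_eq_zero.2 b.symm)), c.symm⟩,
    fun ⟨⟨v, α⟩, a, b⟩ =>
      have := (cst_apply v α).symm.trans a
      ⟨v, α, congrFun (congrArg Prod.fst this), (sub_eq_zero.1 (congrArg Prod.snd this)).symm,
        b.symm⟩⟩)

theorem Std.finrank_stb (r : Gz ch ν) (hν : Fintype.card ν ≤ 3) (h : Std x q) :
    finrank ℂ (stb x) + Fintype.card ν + 1 = 3 + Fintype.card ι := by
  have := (cst ch q).finrank_range_add_finrank_ker
  rw [LinearMap.range_eq_top.2 (r.cst_surj hν h.inj), finrank_top] at this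
  rw [h.stb_eq r, ← (Submodule.equivMapOfInjective _ r.lie_injective _).finrank_eq]
  simp at this
  omega

theorem Gz.finrank_stb (r : Gz ch ν) (hν : Fintype.card ν ≤ 3) (hx : x ∈ ch.base ν)
    (hc : IsConnected (crv x)) (hn : ∀ c ∈ crv x, ¬IsNode ch.o (crv x) c) :
    finrank ℂ (stb x) + Fintype.card ν + 1 = 3 + Fintype.card ι := by
  obtain ⟨_, ⟨u, rfl⟩, h⟩ := r.hom_mark hx hc hn hν (q := fun n => ((Fintype.equivFin ν n : ℕ) : ℂ))
    (coe_injective.comp (Nat.cast_injective.comp (Fin.val_injective.comp (Equiv.injective _))))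
  rw [← finrank_stb_act u, h.finrank_stb r hν]

section mfd

variable (x : Sp act (ch.base ν))

/-- the point of `base` with the curve part of `x` and the fields `F` -/
noncomputable def setB (F : Fl ch) : Sp act (ch.base ν) := Sp.of act (setX x.val F) x.val_mem

theorem continuous_setB : Continuous (setB x) :=
  Sp.isEmbedding_val.continuous_iff.2 (continuous_iff_continuousAt.2 fun F =>
    (an_setX F).continuousAt)

variable {x} {N : ℕ} (hm : IsMfd Sp.val N x)
  (hN : N + finrank ℂ (stb x.val) = finrank ℂ (ch.A ν) + finrank ℂ (Fl ch))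
include hm hN

theorem fill : Fill expU Sp.val (setB x) x.val.X (fl ch ν) (dact x.val) N :=
  ⟨isExp_expU, Sp.holAct _, continuous_setB x, an_setX _, (hasFDerivAt_setX _).fderiv,
    fl_injective, inf_eq x, hm, hN⟩

/-- **the group and the fields parametrise `base`** -/
theorem isParam {L : Submodule ℂ (ch.A ν)} (hL : IsCompl (stb x.val) L) :
    IsParam Sp.val (fun p : L × Fl ch => expU (p.1 : ch.A ν) • setB x p.2) (0, x.val.X) :=
  ((fill hm hN).isParam hL).1

/-- **the tangent space consists of the orbit directions and the field directions** -/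
theorem mem_tan {v : ch.W ν} : v ∈ tan Sp.val x ↔ ∃ ξ F, dact x.val ξ + fl ch ν F = v :=
  (fill hm hN).mem_tan

theorem tan_eq : tan Sp.val x = (dact x.val).range ⊔ (fl ch ν).range :=
  Submodule.ext fun _ => (mem_tan hm hN).trans (Iff.symm (Submodule.mem_sup.trans
    ⟨fun ⟨_, ⟨ξ, a⟩, _, ⟨F, b⟩, c⟩ => ⟨ξ, F, by rw [← c, ← a, ← b]; rfl⟩,
      fun ⟨ξ, F, c⟩ => ⟨_, ⟨ξ, rfl⟩, _, ⟨F, rfl⟩, c⟩⟩))

/-- **nearby points have the same curve part up to a small element of the group** -/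
theorem nhds_le : 𝓝 x ≤ map (fun p : (ch.A ν)ˣ × Fl ch => p.1 • setB x p.2) (𝓝 (1, x.val.X)) :=
  (fill hm hN).nhds_le

theorem eventually_act : ∀ᶠ y in 𝓝 x, ∃ (g : (ch.A ν)ˣ) (F : Fl ch), y = g • setB x F :=
  nhds_le hm hN (mem_map.2 (Eventually.of_forall fun p => ⟨p.1, p.2, rfl⟩))

end mfd

/-- the dimension of `base` in genus zero gives the hypothesis of `isParam` -/
theorem Gz.dim (r : Gz ch ν) (hν : Fintype.card ν ≤ 3) (hx : x ∈ ch.base ν)
    (hc : IsConnected (crv x)) (hn : ∀ c ∈ crv x, ¬IsNode ch.o (crv x) c) {N : ℕ}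
    (hN : (N : ℤ) = 3 * ch.g - 3 + Fintype.card ν + (Fintype.card ι - 1) * (ch.g - 1) +
      finrank ℂ (ch.A ν) + finrank ℂ (Fl ch)) :
    N + finrank ℂ (stb x) = finrank ℂ (ch.A ν) + finrank ℂ (Fl ch) := by
  have := r.finrank_stb hν hx hc hn
  rw [r.g] at hN
  omega

theorem Std.dim (r : Gz ch ν) (hν : Fintype.card ν ≤ 3) (h : Std x q) {N : ℕ}
    (hN : (N : ℤ) = 3 * ch.g - 3 + Fintype.card ν + (Fintype.card ι - 1) * (ch.g - 1) +
      finrank ℂ (ch.A ν) + finrank ℂ (Fl ch)) :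
    N + finrank ℂ (stb x) = finrank ℂ (ch.A ν) + finrank ℂ (Fl ch) :=
  r.dim hν (h.mem_base r) (h.isConnected r) (h.not_node r) hN

end Vale.Agent.P269.P1
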